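import Vale.Agent.P092.H710.Mix.Res
import Vale.Agent.P092.H333.NeQ

/-!
P092, [MIX] (M1), helper710: **[T-DENSE]** in the letters of the triples `(V, A, B)`: over a dense
source place there is no field (`NeC`) at a target place with infinite discrete image.
-/

set_option linter.all false

open scoped InnerProductSpace Topology ENNReal
open Filter ContinuousLinearMap MeasureTheory

namespace Vale.Agent.P092.H710.Mix

open Vale.Agent.P092.H160 (Cmm Ell2)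
open Vale.Agent.P092.H103 (AF)
open Vale.Agent.P092.SR (Tri)
open Vale.Agent.P092.QT.H156.Sm (Frm Smo)
open Vale.Agent.P092.QT.H715.Q (Dbl F1)
open Vale.Agent.P092.H962
open Vale.Agent.P092.H333.Amp

section dbl

variable {Γ Q ℋ ι ι₁ : Type} [Group Γ] [Group Q] [Fintype Q] [NormedAddCommGroup ℋ]
  [InnerProductSpace ℂ ℋ] [CompleteSpace ℋ] {V R₁ R₂ : Γ →* (ℋ →L[ℂ] ℋ)} [Fintype ι] [Fintype ι₁]
  {ξ : ι → ℋ} {ξ₁ : ι₁ → ℋ}

/-- The double frame of the first leg. -/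
theorem exists_dbl1 (hΓ : ∀ g : Γ, g ≠ 1 → Set.Infinite {y : Γ | ∃ h, y = h * g * h⁻¹})
    (hT : Tri V R₁ R₂ ξ) (hT₁ : Tri R₁ V R₂ ξ₁)
    (hc : Fintype.card ι ≤ Fintype.card Q) (hc₁ : Fintype.card ι₁ ≤ Fintype.card Q) :
    ∃ ω ω' : KT Q ℋ,
      Dbl (av Q V) (av Q R₁) (lf Γ Q false) (rt Q (pr R₁ R₂ hT.comm₁₂)) (lf Γ Q false)
        (rt Q (pr V R₂ hT.comm₂)) ω ω' := by
  obtain ⟨ω, hω, -⟩ := exists_frm (Q := Q) hT (H962.tr0 hΓ hT hT₁) hc
  obtain ⟨ω₁, hω₁, -⟩ := exists_frm (Q := Q) hT₁ (H962.tr0 hΓ hT₁ hT) hc₁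
  refine ⟨ω, ω₁, hω, hω₁, fun g => ⟨((g, 1), 1), rfl, ?_⟩, fun g => ⟨((g, 1), 1), rfl, ?_⟩,
    fun T => ?_⟩
  · change amp (R₁ g * R₂ 1) * sg 1 = amp (R₁ g)
    rw [map_one, mul_one, sg_one, mul_one]
  · change amp (V g * R₂ 1) * sg 1 = amp (V g)
    rw [map_one, mul_one, sg_one, mul_one]
  · constructor
    · rintro h ⟨⟨a, b⟩, f⟩ hy
      have ha : a = 1 := hy
      have h1 := h ((1, b), f) rfl
      change T * (amp (R₁ 1 * R₂ b) * sg f) = (amp (R₁ 1 * R₂ b) * sg f) * T at h1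
      change T * (amp (V a * R₂ b) * sg f) = (amp (V a * R₂ b) * sg f) * T
      rw [ha, map_one, one_mul]
      rwa [map_one, one_mul] at h1
    · rintro h ⟨⟨a, b⟩, f⟩ hy
      have ha : a = 1 := hy
      have h1 := h ((1, b), f) rfl
      change T * (amp (V 1 * R₂ b) * sg f) = (amp (V 1 * R₂ b) * sg f) * T at h1
      change T * (amp (R₁ a * R₂ b) * sg f) = (amp (R₁ a * R₂ b) * sg f) * T
      rw [ha, map_one, one_mul]
      rwa [map_one, one_mul] at h1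

end dbl

section tri

variable {Γ G H ℋ ι ι₁ : Type} [Group Γ] [Countable Γ] [Group G] [Group H] [TopologicalSpace G]
  [TopologicalSpace H] [IsTopologicalGroup G] [IsTopologicalGroup H] [MeasurableSpace G]
  [BorelSpace G] [NormedAddCommGroup ℋ]
  [InnerProductSpace ℂ ℋ] [CompleteSpace ℋ] {V A B : Γ →* (ℋ →L[ℂ] ℋ)} [Fintype ι] [Fintype ι₁]
  {ξ : ι → ℋ} {ξ₁ : ι₁ → ℋ} {p : Γ →* G} {κ : Γ →* H} {μ : Measure G} [μ.IsHaarMeasure]

/-- **[T-DENSE] for triples.** -/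
theorem not_neC (hΓ : ∀ g : Γ, g ≠ 1 → Set.Infinite {y : Γ | ∃ h, y = h * g * h⁻¹})
    (hT : Tri V A B ξ) (hT₁ : Tri A V B ξ₁) (hd : DiscreteTopology (Set.range p))
    (hi : (Set.range p).Infinite) (hκ : DenseRange κ) (hE : ErgC κ V A B)
    (hO : ∀ O : Subgroup H, O.Normal → IsOpen (O : Set H) → O.FiniteIndex) :
    ¬ NeC p κ V A B μ := by
  rintro ⟨b, hb, hb0⟩
  obtain ⟨N, hN⟩ : ∃ N : ℕ, N = Fintype.card ι + Fintype.card ι₁ := ⟨_, rfl⟩
  have hcard : Fintype.card (Multiplicative (ZMod (N + 1))) = N + 1 := by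
    rw [Fintype.card_multiplicative, ZMod.card]
  obtain ⟨ω, ω', hD⟩ := exists_dbl1 (Q := Multiplicative (ZMod (N + 1))) hΓ hT hT₁
    (by rw [hcard, hN]; omega) (by rw [hcard, hN]; omega)
  have h1 := smo_false (Q := Multiplicative (ZMod (N + 1))) hb hT.comm₁₂ ω
  have h2 := tdense_sub hD hd hi hκ (erg_amp hD.fr hE) hO h1
  exact amp_ne (Q := Multiplicative (ZMod (N + 1))) hb0 h2

end tri

end Vale.Agent.P092.H710.Mix
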