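import Vale.Agent.P092.H710.Mix.Open
import Vale.Agent.P092.H333.V.Ov2

/-!
P092, project MIX (helper710): open normal subgroups of the quotient of an overgroup by its radical.
-/

set_option linter.all false

open Topology Filter

namespace Vale.Agent.P092.H710.Mix

open Vale.Agent.P092.VR (Ov IsRad FacV)
open Vale.Agent.P092.H333.V

variable {M E : Type} [Group M] [TopologicalSpace M] [Group E] [TopologicalSpace E]
  {φ : M →* E} {R : Subgroup E} {r : ℕ}

theorem ov_nd (h : Ov φ r) (hR : IsRad φ R) [R.Normal] : ¬ DiscreteTopology (E ⧸ R) := by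
  intro hd
  have hN := facS_nn h hR
  refine hN.nc ?_
  have h1 : ∀ a : NN φ R, a = 1 := by
    intro a
    by_contra ha
    exact hN.cent a ha (isOpen_discrete _)
  haveI : Subsingleton (NN φ R) := ⟨fun a b => (h1 a).trans (h1 b).symm⟩
  infer_instance

theorem ov_open (h : Ov φ r) (hR : IsRad φ R) [R.Normal] :
    ∀ O : Subgroup (E ⧸ R), O.Normal → IsOpen (O : Set (E ⧸ R)) → O.FiniteIndex := by
  haveI := h.top
  exact open_fin (nn_normal (R := R) h.normal) (nn_fin (R := R) h.fin) (nn_cent hR)
    (facS_nn h hR).simple (ov_nd h hR)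

end Vale.Agent.P092.H710.Mix
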