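import Vale.Agent.P092.H710.Mix.Core3
import Vale.Agent.P092.QT.H715.QDefs
import Vale.Agent.P092.QT.H156.Int

/-!
P092, [MIX] (M1) = [T-DENSE], helper710: the smooth fields of project Q over a discrete target group
satisfy the hypotheses of the core.
-/

set_option linter.all false

open scoped InnerProductSpace Topology ENNReal
open Filter ContinuousLinearMap MeasureTheory
open Vale.Agent.P092.H160
open Vale.Agent.P092.QT (TRep)
open Vale.Agent.P092.QT.H156.Sm (Frm Fd Smo ACont L2)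
open Vale.Agent.P092.QT.H715.Q (Dbl F1)

namespace Vale.Agent.P092.H710.Mix

section alg

variable {Γ X D H K : Type} [Group Γ] [Group X] [Group D] [Group H]
  [TopologicalSpace D] [TopologicalSpace H]
  [IsTopologicalGroup D] [IsTopologicalGroup H]
  [NormedAddCommGroup K] [InnerProductSpace ℂ K] [CompleteSpace K]
  {ρ : X →* (K →L[ℂ] K)} {V : Γ →* (K →L[ℂ] K)} {ω : K} {ι : X →* D} {κ : Γ →* H}

/-- The algebra of the bounded smooth fields. -/
noncomputable def alg (ι : X →* D) (κ : Γ →* H) (hF : Frm ρ V ω) :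
    StarSubalgebra ℂ (D → K →L[ℂ] K) where
  carrier := {b | Fd ι ρ b ∧ ACont κ V b}
  mul_mem' := fun ha hb => ⟨ha.1.mul hb.1, ACont.mul hF ha.2 hb.2 ha.1.bdd hb.1.bdd⟩
  add_mem' := fun ha hb => ⟨ha.1.add hb.1, ACont.add ha.2 hb.2⟩
  algebraMap_mem' := fun c => by
    have h1 : Fd ι ρ (fun _ : D => (1 : K →L[ℂ] K)) :=
      Fd.const hF.reg (m := 1) fun γ => by rw [one_mul, mul_one]
    have h2 : ACont κ V (fun _ : D => (1 : K →L[ℂ] K)) := fun ε hε => ⟨Set.univ, univ_mem,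
      fun v _ x => by
        rw [mul_one, hF.mul_inv, sub_self, norm_zero]
        exact hε.le⟩
    have e : (algebraMap ℂ (D → K →L[ℂ] K)) c = fun _ => c • (1 : K →L[ℂ] K) := by
      funext x
      rw [Algebra.algebraMap_eq_smul_one]
      rfl
    rw [e]
    exact ⟨h1.smul c, ACont.smul c h2⟩
  star_mem' := fun hb => ⟨hb.1.adj hF.reg, ACont.adj hF hb.2⟩

theorem mem_alg {hF : Frm ρ V ω} {b : D → K →L[ℂ] K} :
    b ∈ alg ι κ hF ↔ Fd ι ρ b ∧ ACont κ V b := Iff.rfl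

end alg

section ms

variable {D K : Type} [Group D] [TopologicalSpace D] [DiscreteTopology D] [Countable D]
  [MeasurableSpace D] [BorelSpace D] [NormedAddCommGroup K] [InnerProductSpace ℂ K]
  [CompleteSpace K] {μ : Measure D} [μ.IsHaarMeasure]

theorem mu_eq (μ : Measure D) [μ.IsHaarMeasure] : μ = μ {1} • Measure.count := by
  haveI : ContinuousMul D := ⟨continuous_of_discreteTopology⟩
  rw [Measure.ext_iff_singleton]
  intro x
  rw [Measure.haar_singleton, Measure.smul_apply, Measure.count_singleton, smul_eq_mul, mul_one]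

theorem mu_ne (μ : Measure D) [μ.IsHaarMeasure] : μ {1} ≠ 0 :=
  (IsOpen.measure_pos μ (isOpen_discrete _) (Set.singleton_nonempty _)).ne'

theorem mu_top (μ : Measure D) [μ.IsHaarMeasure] : μ {1} ≠ ∞ :=
  (isCompact_singleton.measure_lt_top).ne

theorem integrable_iff {E : Type} [NormedAddCommGroup E] {f : D → E} :
    Integrable f μ ↔ Summable fun x => ‖f x‖ := by
  rw [mu_eq μ, integrable_smul_measure (mu_ne μ) (mu_top μ), integrable_count_iff]

theorem integral_eq {f : D → ℂ} (hf : Summable f) :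
    ∫ x, f x ∂μ = ((μ {1}).toReal : ℂ) * ∑' x, f x := by
  have h1 : Integrable f μ := integrable_iff.2 hf.norm
  rw [integral_countable h1, ← tsum_mul_left]
  refine tsum_congr fun x => ?_
  haveI : ContinuousMul D := ⟨continuous_of_discreteTopology⟩
  rw [Measure.real, Measure.haar_singleton, Complex.real_smul]

theorem l2_iff {f : D → K} : MemLp f 2 μ ↔ Summable fun x => ‖f x‖ ^ 2 := by
  have h0 : AEStronglyMeasurable f μ := (StronglyMeasurable.of_discrete).aestronglyMeasurable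
  rw [memLp_two_iff_integrable_sq_norm h0, integrable_iff]
  refine summable_congr fun x => ?_
  rw [Real.norm_eq_abs, abs_of_nonneg (by positivity)]

end ms

section cor

variable {Γ X D H K : Type} [Group Γ] [Group X] [Group D] [Group H] [Countable X]
  [TopologicalSpace D] [TopologicalSpace H] [DiscreteTopology D]
  [IsTopologicalGroup D] [IsTopologicalGroup H] [MeasurableSpace D] [BorelSpace D]
  [NormedAddCommGroup K] [InnerProductSpace ℂ K] [CompleteSpace K]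
  {ρ : X →* (K →L[ℂ] K)} {V : Γ →* (K →L[ℂ] K)} {ω : K} {ι : X →* D} {κ : Γ →* H}
  {μ : Measure D} [μ.IsHaarMeasure]

theorem rho_rho_inv (ρ : X →* (K →L[ℂ] K)) (x : X) : ρ x * ρ x⁻¹ = 1 := by
  rw [← map_mul, mul_inv_cancel, map_one]

theorem fd_norm (hF : Frm ρ V ω) (hι : Function.Surjective ι) {b : D → K →L[ℂ] K}
    (hb : Fd ι ρ b) (x y : D) : ‖b x‖ = ‖b y‖ := by
  have key : ∀ x y : D, ‖b y‖ ≤ ‖b x‖ := by
    intro x y
    obtain ⟨g, hg⟩ := hι (y * x⁻¹)
    have h1 := hb.equiv g x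
    rw [hg, inv_mul_cancel_right] at h1
    rw [h1]
    have h2 : ∀ g, ‖ρ g‖ ≤ 1 := fun g =>
      ContinuousLinearMap.opNorm_le_bound _ zero_le_one fun u => by rw [hF.reg.norm_map, one_mul]
    calc ‖ρ g * b x * ρ g⁻¹‖ ≤ ‖ρ g‖ * ‖b x‖ * ‖ρ g⁻¹‖ :=
          (norm_mul_le _ _).trans (by gcongr; exact norm_mul_le _ _)
      _ ≤ 1 * ‖b x‖ * 1 := by
          gcongr
          · exact h2 g
          · exact h2 g⁻¹
      _ = ‖b x‖ := by ring
  exact le_antisymm (key y x) (key x y)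

theorem fd_lim {b : ℕ → D → K →L[ℂ] K} {c : D → K →L[ℂ] K} (hb : ∀ n, Fd ι ρ (b n))
    (h : ∀ ε > 0, ∀ᶠ n in atTop, ∀ x, ‖b n x - c x‖ ≤ ε) : Fd ι ρ c where
  equiv g x := by
    have ht : ∀ x, Tendsto (fun n => b n x) atTop (𝓝 (c x)) := fun x => by
      rw [tendsto_iff_norm_sub_tendsto_zero, Metric.tendsto_nhds]
      intro ε hε
      filter_upwards [h (ε / 2) (by positivity)] with n hn
      rw [Real.dist_eq, sub_zero, abs_of_nonneg (norm_nonneg _)]
      exact (hn x).trans_lt (by linarith)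
    have h1 := ht (ι g * x)
    have h2 : Tendsto (fun n => ρ g * b n x * ρ g⁻¹) atTop (𝓝 (ρ g * c x * ρ g⁻¹)) :=
      ((ht x).const_mul _).mul_const _
    refine tendsto_nhds_unique h1 (h2.congr fun n => ?_)
    rw [(hb n).equiv]
  bdd := by
    obtain ⟨n, hn⟩ := (h 1 one_pos).exists
    obtain ⟨C, hC⟩ := (hb n).bdd
    refine ⟨C + 1, fun x => ?_⟩
    have h1 := hn x
    rw [norm_sub_rev] at h1
    calc ‖c x‖ = ‖b n x + (c x - b n x)‖ := by rw [add_sub_cancel]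
      _ ≤ ‖b n x‖ + ‖c x - b n x‖ := norm_add_le _ _
      _ ≤ C + 1 := add_le_add (hC x) h1
  rcont ε hε := ⟨{1}, mem_nhds_discrete.2 rfl, fun y hy x => by
    rw [Set.mem_singleton_iff.1 hy, mul_one, sub_self, norm_zero]
    exact hε.le⟩

theorem acont_lim (hF : Frm ρ V ω) {b : ℕ → D → K →L[ℂ] K} {c : D → K →L[ℂ] K}
    (hb : ∀ n, ACont κ V (b n)) (h : ∀ ε > 0, ∀ᶠ n in atTop, ∀ x, ‖b n x - c x‖ ≤ ε) :
    ACont κ V c := by
  intro ε hε
  obtain ⟨n, hn⟩ := (h (ε / 3) (by positivity)).exists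
  obtain ⟨U, hU, h1⟩ := hb n (ε / 3) (by positivity)
  refine ⟨U, hU, fun v hv x => ?_⟩
  have e : V v * c x * V v⁻¹ - c x =
      V v * (c x - b n x) * V v⁻¹ + (V v * b n x * V v⁻¹ - b n x) + (b n x - c x) := by
    rw [mul_sub, sub_mul]
    abel
  have h2 : ‖V v * (c x - b n x) * V v⁻¹‖ ≤ ε / 3 := by
    calc _ ≤ ‖V v‖ * ‖c x - b n x‖ * ‖V v⁻¹‖ :=
          (norm_mul_le _ _).trans (by gcongr; exact norm_mul_le _ _)
      _ ≤ 1 * ‖c x - b n x‖ * 1 := by
          gcongr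
          · exact hF.norm_le v
          · exact hF.norm_le v⁻¹
      _ = ‖b n x - c x‖ := by rw [one_mul, mul_one, norm_sub_rev]
      _ ≤ ε / 3 := hn x
  rw [e]
  calc _ ≤ ‖V v * (c x - b n x) * V v⁻¹‖ + ‖V v * b n x * V v⁻¹ - b n x‖ + ‖b n x - c x‖ :=
        norm_add₃_le
    _ ≤ ε / 3 + ε / 3 + ε / 3 := by
        gcongr
        · exact h1 v hv x
        · exact hn x
    _ = ε := by ring

theorem ip_conv [Countable D] {a b : D → K →L[ℂ] K} {ζ : K} (ha : S2 ζ a) (hb : S2 ζ b) :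
    QT.H156.Sm.ip ζ μ a b = ((μ {1}).toReal : ℂ) * ip ζ a b :=
  integral_eq (inner_summable ha hb)

theorem m_ne [Countable D] (μ : Measure D) [μ.IsHaarMeasure] : ((μ {1}).toReal : ℂ) ≠ 0 := by
  exact_mod_cast (ENNReal.toReal_ne_zero.2 ⟨mu_ne μ, mu_top μ⟩)

/-- **The smooth fields satisfy the hypotheses of the core.** -/
theorem cor (hF : Frm ρ V ω) (hι : Function.Surjective ι) (h1 : F1 ι κ ρ V ω μ) :
    Cor ω (alg ι κ hF) := by
  haveI : Countable D := hι.countable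
  have hsm : ∀ b ∈ alg ι κ hF, S2 ω b → Smo ι κ ρ V ω μ b := fun b hb h2 =>
    ⟨hb.1, hb.2, l2_iff.2 h2⟩
  refine ⟨hF.norm_omega, fun b hb x y => fd_norm hF hι hb.1 x y, fun b c hb h => ?_, ?_, ?_, ?_⟩
  · exact ⟨fd_lim (fun n => (hb n).1) h, acont_lim hF (fun n => (hb n).2) h⟩
  · intro a ha b hb ha2 hb2 ζ η
    have h2 : ∀ (c : D → K →L[ℂ] K), c ∈ alg ι κ hF → S2 ω c → ∀ ξ : K, S2 ξ c := fun c hc hc2 ξ =>
      l2_iff.1 (h1 c c (hsm c hc hc2) (hsm c hc hc2) ξ ξ).1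
    refine ⟨h2 a ha ha2 ζ, ?_⟩
    have h3 := (h1 a b (hsm a ha ha2) (hsm b hb hb2) ζ η).2
    rw [integral_eq (inner_summable (h2 a ha ha2 ζ) (h2 b hb hb2 η)), ip_conv ha2 hb2,
      mul_assoc] at h3
    exact mul_left_cancel₀ (m_ne μ) h3
  · intro b hb hb2
    exact l2_iff.1 (QT.H156.Sm.L2.adj (μ := μ) hF.reg hb.1 (l2_iff.2 hb2))
  · intro a ha b hb ha2 hb2
    have h3 := QT.H156.Sm.ip_adj (μ := μ) hF.reg hb.1 ha.1 (l2_iff.2 hb2) (l2_iff.2 ha2)
    have ha3 : S2 ω (star a) := l2_iff.1 (QT.H156.Sm.L2.adj (μ := μ) hF.reg ha.1 (l2_iff.2 ha2))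
    have hb3 : S2 ω (star b) := l2_iff.1 (QT.H156.Sm.L2.adj (μ := μ) hF.reg hb.1 (l2_iff.2 hb2))
    have h4 : QT.H156.Sm.ip ω μ (star a) (star b) = QT.H156.Sm.ip ω μ b a := h3
    rw [ip_conv ha3 hb3, ip_conv hb2 ha2] at h4
    exact mul_left_cancel₀ (m_ne μ) h4

end cor

end Vale.Agent.P092.H710.Mix
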