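import Mathlib

/-!
P092, [MIX] (M1) = [T-DENSE], helper710 (text: helper25, board 9375): the abstract core.

`𝔅` is an algebra of bounded fields `b : D → B(K)` (pointwise operations), closed for the uniform
norm; the fields which are square summable at `ω` satisfy `∑ ⟪a x ζ, b x η⟫ = ⟨a, b⟩ ⟪ζ, η⟫` (`f1`)
and `⟨a*, b*⟩ = ⟨b, a⟩` (`tr`). Result: there is a minimal central projection of `𝔅` which is
square summable (`exists_central`).
-/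

set_option linter.all false

open scoped InnerProductSpace Topology
open Filter ContinuousLinearMap

namespace Vale.Agent.P092.H710.Mix

section defs

variable {D K : Type} [NormedAddCommGroup K] [InnerProductSpace ℂ K] [CompleteSpace K]

/-- square summable at `ζ` -/
def S2 (ζ : K) (b : D → K →L[ℂ] K) : Prop := Summable fun x => ‖b x ζ‖ ^ 2

/-- the inner product of two fields -/
noncomputable def ip (ζ : K) (a b : D → K →L[ℂ] K) : ℂ := ∑' x, ⟪a x ζ, b x ζ⟫_ℂ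

/-- the square of the two norm -/
noncomputable def nn (ζ : K) (b : D → K →L[ℂ] K) : ℝ := ∑' x, ‖b x ζ‖ ^ 2

/-- The hypotheses of the core. -/
structure Cor (ω : K) (𝔅 : StarSubalgebra ℂ (D → K →L[ℂ] K)) : Prop where
  n1 : ‖ω‖ = 1
  nrm : ∀ b ∈ 𝔅, ∀ x y, ‖b x‖ = ‖b y‖
  clo : ∀ (b : ℕ → D → K →L[ℂ] K) (c : D → K →L[ℂ] K), (∀ n, b n ∈ 𝔅) →
    (∀ ε > 0, ∀ᶠ n in atTop, ∀ x, ‖b n x - c x‖ ≤ ε) → c ∈ 𝔅
  f1 : ∀ a ∈ 𝔅, ∀ b ∈ 𝔅, S2 ω a → S2 ω b → ∀ ζ η, S2 ζ a ∧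
    ∑' x, ⟪a x ζ, b x η⟫_ℂ = ip ω a b * ⟪ζ, η⟫_ℂ
  tr : ∀ b ∈ 𝔅, S2 ω b → S2 ω (star b)
  tr' : ∀ a ∈ 𝔅, ∀ b ∈ 𝔅, S2 ω a → S2 ω b → ip ω (star a) (star b) = ip ω b a

end defs

section basic

variable {D K : Type} [NormedAddCommGroup K] [InnerProductSpace ℂ K] [CompleteSpace K]
  {ω : K} {𝔅 : StarSubalgebra ℂ (D → K →L[ℂ] K)} {a b : D → K →L[ℂ] K}

theorem inner_summable {ζ η : K} (ha : S2 ζ a) (hb : S2 η b) :
    Summable fun x => ⟪a x ζ, b x η⟫_ℂ := by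
  refine Summable.of_norm_bounded (ha.add hb) fun x => ?_
  refine (norm_inner_le_norm _ _).trans ?_
  nlinarith [sq_nonneg (‖a x ζ‖ - ‖b x η‖), norm_nonneg (a x ζ), norm_nonneg (b x η)]

theorem nn_nonneg (ζ : K) (b : D → K →L[ℂ] K) : 0 ≤ nn ζ b := tsum_nonneg fun x => by positivity

theorem ip_self (ζ : K) (b : D → K →L[ℂ] K) : ip ζ b b = (nn ζ b : ℂ) := by
  unfold ip nn
  rw [Complex.ofReal_tsum]
  refine tsum_congr fun x => ?_
  rw [inner_self_eq_norm_sq_to_K]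
  norm_cast

theorem S2.mul_left {ζ : K} (hb : S2 ζ b) {C : ℝ} (hC : ∀ x, ‖a x‖ ≤ C) : S2 ζ (a * b) := by
  refine Summable.of_nonneg_of_le (fun x => by positivity) (fun x => ?_) (Summable.mul_left (C ^ 2) hb)
  have h1 : ‖a x (b x ζ)‖ ≤ C * ‖b x ζ‖ :=
    ((a x).le_opNorm _).trans (mul_le_mul_of_nonneg_right (hC x) (norm_nonneg _))
  calc ‖(a * b) x ζ‖ ^ 2 = ‖a x (b x ζ)‖ ^ 2 := rfl
    _ ≤ (C * ‖b x ζ‖) ^ 2 := by gcongr
    _ = C ^ 2 * ‖b x ζ‖ ^ 2 := by ring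

theorem nn_mul_left {ζ : K} (hb : S2 ζ b) (hC : ∀ x, ‖a x‖ ≤ 1) : nn ζ (a * b) ≤ nn ζ b := by
  refine Summable.tsum_le_tsum (fun x => ?_) (hb.mul_left hC) hb
  have h1 : ‖a x (b x ζ)‖ ≤ 1 * ‖b x ζ‖ :=
    ((a x).le_opNorm _).trans (mul_le_mul_of_nonneg_right (hC x) (norm_nonneg _))
  rw [one_mul] at h1
  change ‖a x (b x ζ)‖ ^ 2 ≤ _
  gcongr

theorem S2.add {ζ : K} (ha : S2 ζ a) (hb : S2 ζ b) : S2 ζ (a + b) := by
  refine Summable.of_nonneg_of_le (fun x => by positivity) (fun x => ?_)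
    ((Summable.mul_left 2 ha).add (Summable.mul_left 2 hb))
  have h1 : ‖(a + b) x ζ‖ ≤ ‖a x ζ‖ + ‖b x ζ‖ := norm_add_le _ _
  have h2 := norm_nonneg ((a + b) x ζ)
  nlinarith [sq_nonneg (‖a x ζ‖ - ‖b x ζ‖), norm_nonneg (a x ζ), norm_nonneg (b x ζ)]

theorem S2.smul {ζ : K} (c : ℂ) (ha : S2 ζ a) : S2 ζ (c • a) := by
  have h1 := Summable.mul_left (‖c‖ ^ 2) ha
  refine h1.congr fun x => ?_
  change _ = ‖c • (a x ζ)‖ ^ 2
  rw [norm_smul, mul_pow]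

theorem S2.sub {ζ : K} (ha : S2 ζ a) (hb : S2 ζ b) : S2 ζ (a - b) := by
  have h1 := ha.add (hb.smul (-1))
  have e : a + (-1 : ℂ) • b = a - b := by rw [neg_one_smul, sub_eq_add_neg]
  rwa [e] at h1

theorem S2.sum {ζ : K} {ι : Type} (s : Finset ι) (f : ι → D → K →L[ℂ] K)
    (h : ∀ i ∈ s, S2 ζ (f i)) : S2 ζ (∑ i ∈ s, f i) := by
  classical
  induction s using Finset.induction_on with
  | empty =>
    rw [Finset.sum_empty]
    refine summable_zero.congr fun x => ?_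
    simp
  | insert i s hi ih =>
    rw [Finset.sum_insert hi]
    exact (h i (Finset.mem_insert_self _ _)).add
      (ih fun j hj => h j (Finset.mem_insert_of_mem hj))

variable (hc : Cor ω 𝔅)

include hc

/-- the norm of a field of `𝔅` -/
theorem Cor.bdd (hb : b ∈ 𝔅) (x₀ : D) : ∀ x, ‖b x‖ ≤ ‖b x₀‖ := fun x => (hc.nrm b hb x x₀).le

theorem Cor.ne (hb : b ∈ 𝔅) (h0 : b ≠ 0) (x : D) : b x ≠ 0 := by
  intro h
  refine h0 (funext fun y => ?_)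
  have h1 := hc.nrm b hb y x
  rw [h, norm_zero, norm_eq_zero] at h1
  exact h1

theorem Cor.sum_sq (hb : b ∈ 𝔅) (h2 : S2 ω b) (ζ : K) : ∑' x, ‖b x ζ‖ ^ 2 = nn ω b * ‖ζ‖ ^ 2 := by
  have h1 := (hc.f1 b hb b hb h2 h2 ζ ζ).2
  rw [ip_self, inner_self_eq_norm_sq_to_K] at h1
  have h3 : ∑' x, ⟪b x ζ, b x ζ⟫_ℂ = ((∑' x, ‖b x ζ‖ ^ 2 : ℝ) : ℂ) := ip_self ζ b
  rw [h3] at h1
  have h4 : ((∑' x, ‖b x ζ‖ ^ 2 : ℝ) : ℂ) = ((nn ω b * ‖ζ‖ ^ 2 : ℝ) : ℂ) := by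
    rw [h1]
    push_cast
    rfl
  exact_mod_cast h4

theorem Cor.apply_le (hb : b ∈ 𝔅) (h2 : S2 ω b) (x : D) (ζ : K) :
    ‖b x ζ‖ ^ 2 ≤ nn ω b * ‖ζ‖ ^ 2 := by
  rw [← hc.sum_sq hb h2 ζ]
  exact (hc.f1 b hb b hb h2 h2 ζ ζ).1.le_tsum x fun y _ => by positivity

theorem Cor.norm_le (hb : b ∈ 𝔅) (h2 : S2 ω b) (x : D) : ‖b x‖ ^ 2 ≤ nn ω b := by
  have h1 : ‖b x‖ ≤ Real.sqrt (nn ω b) := by
    refine ContinuousLinearMap.opNorm_le_bound _ (Real.sqrt_nonneg _) fun ζ => ?_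
    refine (abs_le_of_sq_le_sq' ?_ (by positivity)).2
    rw [mul_pow, Real.sq_sqrt (nn_nonneg _ _)]
    exact hc.apply_le hb h2 x ζ
  calc ‖b x‖ ^ 2 ≤ Real.sqrt (nn ω b) ^ 2 := by gcongr
    _ = nn ω b := Real.sq_sqrt (nn_nonneg _ _)

theorem Cor.s2_left [Nonempty D] (ha : a ∈ 𝔅) (hb2 : S2 ω b) : S2 ω (a * b) :=
  hb2.mul_left (hc.bdd ha (Classical.arbitrary D))

theorem Cor.s2_right [Nonempty D] (ha : a ∈ 𝔅) (hb : b ∈ 𝔅) (ha2 : S2 ω a) : S2 ω (a * b) := by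
  have h1 := hc.s2_left (star_mem hb) (hc.tr a ha ha2)
  have h2 := hc.tr _ (mul_mem (star_mem hb) (star_mem ha)) h1
  rwa [star_mul, star_star, star_star] at h2

end basic

/-! ### Powers of a selfadjoint field -/

section pow

variable {D K : Type} [NormedAddCommGroup K] [InnerProductSpace ℂ K] [CompleteSpace K]
  {ω : K} {𝔅 : StarSubalgebra ℂ (D → K →L[ℂ] K)}

theorem inner_pow {T : K →L[ℂ] K} (hT : star T = T) (n m : ℕ) (ζ : K) :
    ⟪(T ^ (2 * n)) ζ, (T ^ (2 * m)) ζ⟫_ℂ = ⟪(T ^ (n + m)) ζ, (T ^ (n + m)) ζ⟫_ℂ := by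
  have h1 : ∀ (i j : ℕ), ⟪(T ^ i) ζ, (T ^ j) ζ⟫_ℂ = ⟪ζ, (T ^ (i + j)) ζ⟫_ℂ := by
    intro i j
    have h2 : adjoint (T ^ i) = T ^ i := by
      rw [← star_eq_adjoint, star_pow, hT]
    rw [pow_add]
    change _ = ⟪ζ, (T ^ i) ((T ^ j) ζ)⟫_ℂ
    have h3 := adjoint_inner_left (T ^ i) ((T ^ j) ζ) ζ
    rw [h2] at h3
    exact h3
  rw [h1, h1]
  congr 3
  ring

theorem norm_pow_sub {T : K →L[ℂ] K} (hT : star T = T) (n m : ℕ) (ζ : K) :
    ‖(T ^ (2 * n) - T ^ (2 * m)) ζ‖ ^ 2 =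
      ‖(T ^ (2 * n)) ζ‖ ^ 2 + ‖(T ^ (2 * m)) ζ‖ ^ 2 - 2 * ‖(T ^ (n + m)) ζ‖ ^ 2 := by
  rw [ContinuousLinearMap.sub_apply, @norm_sub_sq ℂ, inner_pow hT, inner_self_eq_norm_sq_to_K]
  have h1 : RCLike.re ((‖(T ^ (n + m)) ζ‖ : ℂ) ^ 2) = ‖(T ^ (n + m)) ζ‖ ^ 2 := by
    norm_cast
  have h2 : RCLike.re (((‖(T ^ (n + m)) ζ‖ : ℝ) : ℂ) ^ 2) = ‖(T ^ (n + m)) ζ‖ ^ 2 := h1
  simp only [Complex.coe_algebraMap, h2]
  ring

/-- **The power trick.** -/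
theorem Cor.exists_proj [Nonempty D] (hc : Cor ω 𝔅) {Y : D → K →L[ℂ] K} (hY : Y ∈ 𝔅)
    (hs : S2 ω Y) (hsa : star Y = Y) (hn : ∀ x, ‖Y x‖ = 1) :
    ∃ P ∈ 𝔅, S2 ω P ∧ star P = P ∧ P * P = P ∧ P ≠ 0 ∧ Y * Y * P = P ∧
      ∀ E : D → K →L[ℂ] K, Y * E = Y → P * E = P := by
  have hY1 : ∀ x, star (Y x) = Y x := fun x => congrFun hsa x
  have hS : ∀ n, S2 ω (Y ^ (n + 1)) := by
    intro n
    rw [pow_succ]
    exact hc.s2_left (pow_mem hY n) hs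
  have hle1 : ∀ n, nn ω (Y ^ (n + 1 + 1)) ≤ nn ω (Y ^ (n + 1)) := by
    intro n
    rw [pow_succ' Y (n + 1)]
    exact nn_mul_left (hS n) fun x => (hn x).le
  obtain ⟨s, hs_def⟩ : ∃ s : ℕ → ℝ, ∀ n, s n = nn ω (Y ^ (n + 1)) := ⟨_, fun n => rfl⟩
  have hanti : Antitone s := antitone_nat_of_succ_le fun n => by
    rw [hs_def, hs_def]
    exact hle1 n
  have hlim : Tendsto s atTop (𝓝 (⨅ i, s i)) :=
    tendsto_atTop_ciInf hanti ⟨0, by
      rintro _ ⟨n, rfl⟩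
      rw [hs_def]
      exact nn_nonneg _ _⟩
  have hdiff : ∀ n m : ℕ, nn ω (Y ^ (2 * (n + 1)) - Y ^ (2 * (m + 1))) =
      s (2 * n + 1) + s (2 * m + 1) - 2 * s (n + m + 1) := by
    intro n m
    have e1 : 2 * (n + 1) = (2 * n + 1) + 1 := by ring
    have e2 : 2 * (m + 1) = (2 * m + 1) + 1 := by ring
    have e3 : (n + 1) + (m + 1) = (n + m + 1) + 1 := by ring
    have s1 : Summable fun x => ‖(Y ^ (2 * (n + 1))) x ω‖ ^ 2 := by rw [e1]; exact hS _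
    have s2 : Summable fun x => ‖(Y ^ (2 * (m + 1))) x ω‖ ^ 2 := by rw [e2]; exact hS _
    have s3 : Summable fun x => ‖(Y ^ ((n + 1) + (m + 1))) x ω‖ ^ 2 := by rw [e3]; exact hS _
    rw [hs_def, hs_def, hs_def, ← e1, ← e2, ← e3]
    unfold nn
    rw [← s1.tsum_add s2, ← tsum_mul_left, ← (s1.add s2).tsum_sub (s3.mul_left 2)]
    refine tsum_congr fun x => ?_
    exact norm_pow_sub (hY1 x) (n + 1) (m + 1) ω
  have hmem : ∀ n, Y ^ n ∈ 𝔅 := fun n => pow_mem hY n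
  have hS2 : ∀ n, S2 ω (Y ^ (2 * (n + 1))) := fun n => by
    have e1 : 2 * (n + 1) = (2 * n + 1) + 1 := by ring
    rw [e1]
    exact hS _
  -- uniform Cauchy
  have hcau : ∀ ε : ℝ, 0 < ε → ∃ N, ∀ n ≥ N, ∀ m ≥ N, ∀ x,
      ‖(Y ^ (2 * (n + 1))) x - (Y ^ (2 * (m + 1))) x‖ ≤ ε := by
    intro ε hε
    obtain ⟨N, hN⟩ := (Metric.tendsto_atTop.1 hlim) (ε ^ 2 / 4) (by positivity)
    refine ⟨N, fun n hn' m hm x => ?_⟩
    have h1 := hc.norm_le (sub_mem (hmem (2 * (n + 1))) (hmem (2 * (m + 1))))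
      ((hS2 n).sub (hS2 m)) x
    rw [hdiff] at h1
    have h2 := hN (2 * n + 1) (by omega)
    have h3 := hN (2 * m + 1) (by omega)
    have h4 := hN (n + m + 1) (by omega)
    rw [Real.dist_eq, abs_lt] at h2 h3 h4
    have h5 : ‖(Y ^ (2 * (n + 1)) - Y ^ (2 * (m + 1))) x‖ ^ 2 ≤ ε ^ 2 := by linarith [h2.1, h2.2,
      h3.1, h3.2, h4.1, h4.2]
    exact (abs_le_of_sq_le_sq' h5 hε.le).2
  have hx : ∀ x, ∃ T : K →L[ℂ] K, Tendsto (fun n : ℕ => (Y ^ (2 * (n + 1))) x) atTop (𝓝 T) := by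
    intro x
    refine cauchySeq_tendsto_of_complete (Metric.cauchySeq_iff'.2 fun ε hε => ?_)
    obtain ⟨N, hN⟩ := hcau (ε / 2) (by positivity)
    refine ⟨N, fun n hn' => ?_⟩
    rw [dist_eq_norm]
    exact (hN n hn' N le_rfl x).trans_lt (by linarith)
  choose P hP using hx
  have hunif : ∀ ε > 0, ∀ᶠ n : ℕ in atTop, ∀ x, ‖(Y ^ (2 * (n + 1))) x - P x‖ ≤ ε := by
    intro ε hε
    obtain ⟨N, hN⟩ := hcau ε hε
    filter_upwards [eventually_ge_atTop N] with n hn' x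
    have h1 : Tendsto (fun m : ℕ => ‖(Y ^ (2 * (n + 1))) x - (Y ^ (2 * (m + 1))) x‖) atTop
        (𝓝 ‖(Y ^ (2 * (n + 1))) x - P x‖) := (tendsto_const_nhds.sub (hP x)).norm
    exact le_of_tendsto h1 (by
      filter_upwards [eventually_ge_atTop N] with m hm
      exact hN n hn' m hm x)
  have hPB : P ∈ 𝔅 := hc.clo (fun n => Y ^ (2 * (n + 1))) P (fun n => hmem _) hunif
  have hsub : ∀ {g : ℕ → ℕ}, Tendsto g atTop atTop → ∀ x,
      Tendsto (fun n : ℕ => (Y x) ^ (2 * (g n + 1))) atTop (𝓝 (P x)) := by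
    intro g hg x
    exact (hP x).comp hg
  have hP' : ∀ x, Tendsto (fun n : ℕ => (Y x) ^ (2 * (n + 1))) atTop (𝓝 (P x)) := fun x => hP x
  refine ⟨P, hPB, ?_, ?_, ?_, ?_, ?_, ?_⟩
  · -- square summable
    refine summable_of_sum_le (c := s 1) (fun x => by positivity) fun F => ?_
    have h1 : Tendsto (fun n : ℕ => ∑ x ∈ F, ‖((Y x) ^ (2 * (n + 1))) ω‖ ^ 2) atTop
        (𝓝 (∑ x ∈ F, ‖P x ω‖ ^ 2)) := by
      refine tendsto_finset_sum F fun x _ => ?_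
      have h2 : Tendsto (fun n : ℕ => ((Y x) ^ (2 * (n + 1))) ω) atTop (𝓝 (P x ω)) :=
        ((ContinuousLinearMap.apply ℂ K ω).continuous.tendsto (P x)).comp (hP' x)
      exact (h2.norm).pow 2
    refine le_of_tendsto h1 (Eventually.of_forall fun n => ?_)
    have h2 := (hS2 n).sum_le_tsum F (fun x _ => by positivity)
    refine h2.trans ?_
    have h3 : nn ω (Y ^ (2 * (n + 1))) = s (2 * n + 1) := by
      rw [hs_def, show 2 * n + 1 + 1 = 2 * (n + 1) by ring]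
    change nn ω (Y ^ (2 * (n + 1))) ≤ s 1
    rw [h3]
    exact hanti (by omega)
  · funext x
    have h1 : Tendsto (fun n : ℕ => star ((Y x) ^ (2 * (n + 1)))) atTop (𝓝 (star (P x))) :=
      (continuous_star.tendsto _).comp (hP' x)
    refine tendsto_nhds_unique h1 ((hP' x).congr fun n => ?_)
    rw [star_pow, hY1]
  · funext x
    have h1 := (hP' x).mul (hP' x)
    refine tendsto_nhds_unique h1 ?_
    have h2 := hsub (g := fun n => 2 * n + 1)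
      (tendsto_atTop_mono (fun n => (by omega : n ≤ 2 * n + 1)) tendsto_id) x
    refine h2.congr fun n => ?_
    rw [← pow_add]
    congr 1
    ring
  · intro h0
    obtain ⟨x⟩ := ‹Nonempty D›
    have h2 := hsub (g := fun n => 2 ^ n - 1) (by
      refine tendsto_atTop_mono (fun n => ?_) tendsto_id
      have := n.lt_two_pow_self
      simp only [id]
      omega) x
    have h3 : ∀ n : ℕ, ‖(Y x) ^ (2 * ((2 ^ n - 1) + 1))‖ = 1 := by
      intro n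
      have e1 : 2 * ((2 ^ n - 1) + 1) = 2 ^ (n + 1) := by
        have : 0 < 2 ^ n := by positivity
        rw [pow_succ]
        omega
      rw [e1]
      have h4 : IsSelfAdjoint (Y x) := hY1 x
      have h5 := h4.nnnorm_pow_two_pow (n + 1)
      have h6 : ‖(Y x) ^ (2 ^ (n + 1))‖ = ‖Y x‖ ^ (2 ^ (n + 1)) := by
        have := congrArg NNReal.toReal h5
        simpa using this
      rw [h6, hn x, one_pow]
    have h4 : Tendsto (fun n : ℕ => ‖(Y x) ^ (2 * ((2 ^ n - 1) + 1))‖) atTop (𝓝 ‖P x‖) := h2.norm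
    have h5 : Tendsto (fun n : ℕ => ‖(Y x) ^ (2 * ((2 ^ n - 1) + 1))‖) atTop (𝓝 1) := by
      simp only [h3]
      exact tendsto_const_nhds
    have h6 := tendsto_nhds_unique h4 h5
    rw [h0] at h6
    simp at h6
  · funext x
    have h1 : Tendsto (fun n : ℕ => (Y x * Y x) * (Y x) ^ (2 * (n + 1))) atTop
        (𝓝 ((Y x * Y x) * P x)) := (hP' x).const_mul _
    refine tendsto_nhds_unique h1 ?_
    have h2 := hsub (g := fun n => n + 1) (tendsto_add_atTop_nat 1) x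
    refine h2.congr fun n => ?_
    rw [← pow_two, ← pow_add]
    congr 1
    ring
  · intro E hE
    funext x
    have hEx : Y x * E x = Y x := congrFun hE x
    have h1 : Tendsto (fun n : ℕ => (Y x) ^ (2 * (n + 1)) * E x) atTop (𝓝 (P x * E x)) :=
      (hP' x).mul_const _
    refine tendsto_nhds_unique h1 ((hP' x).congr fun n => ?_)
    have e1 : 2 * (n + 1) = (2 * n + 1) + 1 := by ring
    rw [e1, pow_succ, mul_assoc, hEx]

end pow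

end Vale.Agent.P092.H710.Mix
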