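import Vale.Agent.P092.H710.Mix.Core

/-!
P092, [MIX] (M1) = [T-DENSE], helper710: minimal projections and the central projection.
-/

set_option linter.all false

open scoped InnerProductSpace Topology
open Filter ContinuousLinearMap

namespace Vale.Agent.P092.H710.Mix

section prj

variable {D K : Type} [NormedAddCommGroup K] [InnerProductSpace ℂ K] [CompleteSpace K]

/-- nonzero square summable projections of `𝔅` -/
structure Prj (ω : K) (𝔅 : StarSubalgebra ℂ (D → K →L[ℂ] K)) (E : D → K →L[ℂ] K) : Prop where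
  mem : E ∈ 𝔅
  s2 : S2 ω E
  sa : star E = E
  id : E * E = E
  ne : E ≠ 0

/-- minimal ones -/
structure Mnl (ω : K) (𝔅 : StarSubalgebra ℂ (D → K →L[ℂ] K)) (E : D → K →L[ℂ] K) : Prop extends
    Prj ω 𝔅 E where
  mnl : ∀ F, Prj ω 𝔅 F → F * E = F → F = E

variable {ω : K} {𝔅 : StarSubalgebra ℂ (D → K →L[ℂ] K)} {E : D → K →L[ℂ] K}

theorem norm_proj {T : K →L[ℂ] K} (h1 : star T = T) (h2 : T * T = T) (h0 : T ≠ 0) : ‖T‖ = 1 := by
  have h3 : ‖star T * T‖ = ‖T‖ * ‖T‖ := CStarRing.norm_star_mul_self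
  rw [h1, h2] at h3
  have h4 : ‖T‖ ≠ 0 := norm_ne_zero_iff.2 h0
  have h5 : ‖T‖ * (‖T‖ - 1) = 0 := by rw [mul_sub, mul_one, ← h3, sub_self]
  rcases mul_eq_zero.1 h5 with h6 | h6
  · exact absurd h6 h4
  · linarith

theorem Prj.norm_one (hc : Cor ω 𝔅) (h : Prj ω 𝔅 E) (x : D) : ‖E x‖ = 1 :=
  norm_proj (congrFun h.sa x) (congrFun h.id x) (hc.ne h.mem h.ne x)

theorem Prj.one_le [Nonempty D] (hc : Cor ω 𝔅) (h : Prj ω 𝔅 E) : 1 ≤ nn ω E := by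
  obtain ⟨x⟩ := ‹Nonempty D›
  have h1 := hc.norm_le h.mem h.s2 x
  rwa [h.norm_one hc, one_pow] at h1

/-- a unit vector in the range -/
theorem Prj.exists_vec (hc : Cor ω 𝔅) (h : Prj ω 𝔅 E) (x : D) : ∃ ζ : K, ‖ζ‖ = 1 ∧ E x ζ = ζ := by
  obtain ⟨v, hv⟩ : ∃ v, E x v ≠ 0 := by
    by_contra hcon
    push Not at hcon
    exact hc.ne h.mem h.ne x (ContinuousLinearMap.ext hcon)
  have hv' : ‖E x v‖ ≠ 0 := norm_ne_zero_iff.2 hv
  refine ⟨((‖E x v‖⁻¹ : ℝ) : ℂ) • E x v, ?_, ?_⟩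
  · rw [norm_smul, Complex.norm_real, norm_inv, norm_norm, inv_mul_cancel₀ hv']
  · rw [map_smul]
    congr 1
    exact congrArg (fun T : K →L[ℂ] K => T v) (congrFun h.id x)

theorem Prj.exists_mnl [Nonempty D] (hc : Cor ω 𝔅) (h : Prj ω 𝔅 E) : ∃ F, Mnl ω 𝔅 F := by
  obtain ⟨m, hm⟩ : ∃ m, m = sInf {r : ℝ | ∃ F, Prj ω 𝔅 F ∧ nn ω F = r} := ⟨_, rfl⟩
  have hne : {r : ℝ | ∃ F, Prj ω 𝔅 F ∧ nn ω F = r}.Nonempty := ⟨_, E, h, rfl⟩
  have hbd : BddBelow {r : ℝ | ∃ F, Prj ω 𝔅 F ∧ nn ω F = r} := ⟨1, by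
    rintro _ ⟨F, hF, rfl⟩
    exact hF.one_le hc⟩
  have hm1 : 1 ≤ m := by
    rw [hm]
    refine le_csInf hne ?_
    rintro _ ⟨F, hF, rfl⟩
    exact hF.one_le hc
  have hmF : ∀ F, Prj ω 𝔅 F → m ≤ nn ω F := fun F hF => by
    rw [hm]
    exact csInf_le hbd ⟨F, hF, rfl⟩
  obtain ⟨r, ⟨G, hG, rfl⟩, hr⟩ := exists_lt_of_csInf_lt hne (show sInf _ < m + 1 by rw [← hm]; linarith)
  refine ⟨G, hG, fun F hF hFG => ?_⟩
  by_contra hne'
  have hGF : G * F = F := by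
    have h1 := congrArg star hFG
    rwa [star_mul, hF.sa, hG.sa] at h1
  have hP : Prj ω 𝔅 (G - F) := by
    refine ⟨sub_mem hG.mem hF.mem, hG.s2.sub hF.s2, ?_, ?_, ?_⟩
    · rw [star_sub, hG.sa, hF.sa]
    · rw [mul_sub, sub_mul, sub_mul, hG.id, hF.id, hFG, hGF]
      abel
    · intro h0
      exact hne' (sub_eq_zero.1 h0).symm
  have h1 : nn ω G = nn ω F + nn ω (G - F) := by
    unfold nn
    rw [← hF.s2.tsum_add hP.s2]
    refine tsum_congr fun x => ?_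
    have h2 : ⟪F x ω, (G - F) x ω⟫_ℂ = 0 := by
      have h3 : star (F x) = F x := congrFun hF.sa x
      have h4 : F x * ((G - F) x) = 0 := by
        have h5 : F * (G - F) = 0 := by rw [mul_sub, hFG, hF.id, sub_self]
        exact congrFun h5 x
      calc ⟪F x ω, (G - F) x ω⟫_ℂ = ⟪adjoint (F x) ω, (G - F) x ω⟫_ℂ := by
            rw [← star_eq_adjoint, h3]
        _ = ⟪ω, (F x * ((G - F) x)) ω⟫_ℂ := by rw [adjoint_inner_left]; rfl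
        _ = 0 := by rw [h4]; simp
    have h5 : G x ω = F x ω + (G - F) x ω := by
      change G x ω = F x ω + (G x ω - F x ω)
      abel
    rw [h5, @norm_add_sq ℂ, h2]
    simp
  have h2 := hmF F hF
  have h3 := hmF _ hP
  linarith

/-- a nonzero square summable field gives a minimal projection -/
theorem Cor.exists_mnl [Nonempty D] (hc : Cor ω 𝔅) {a : D → K →L[ℂ] K} (ha : a ∈ 𝔅)
    (h2 : S2 ω a) (h0 : a ≠ 0) : ∃ E, Mnl ω 𝔅 E := by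
  obtain ⟨x⟩ := ‹Nonempty D›
  haveI : Nonempty D := ⟨x⟩
  have h1 : a x ≠ 0 := hc.ne ha h0 x
  obtain ⟨t, ht⟩ : ∃ t : ℝ, t = ‖(star a * a) x‖ := ⟨_, rfl⟩
  have ht0 : t ≠ 0 := by
    rw [ht]
    change ‖star (a x) * a x‖ ≠ 0
    rw [CStarRing.norm_star_mul_self]
    exact mul_ne_zero (norm_ne_zero_iff.2 h1) (norm_ne_zero_iff.2 h1)
  have hm : star a * a ∈ 𝔅 := mul_mem (star_mem ha) ha
  obtain ⟨P, hP, hP2, hP3, hP4, hP5, -⟩ := hc.exists_proj (Y := ((t⁻¹ : ℝ) : ℂ) • (star a * a))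
    (SMulMemClass.smul_mem _ hm) ((hc.s2_left (star_mem ha) h2).smul _) (by
      rw [star_smul, star_mul, star_star, RCLike.star_def, Complex.conj_ofReal]) (fun y => by
      change ‖((t⁻¹ : ℝ) : ℂ) • ((star a * a) y)‖ = 1
      rw [norm_smul, Complex.norm_real, norm_inv, hc.nrm _ hm y x, ← ht, Real.norm_eq_abs,
        abs_of_nonneg (by rw [ht]; exact norm_nonneg _), inv_mul_cancel₀ ht0])
  exact Prj.exists_mnl hc ⟨hP, hP2, hP3, hP4, hP5⟩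

/-- selfadjoint elements of the corner -/
theorem Mnl.sq [Nonempty D] (hc : Cor ω 𝔅) (h : Mnl ω 𝔅 E) {Z : D → K →L[ℂ] K} (hZ : Z ∈ 𝔅)
    (hZE : Z * E = Z) (hs : star Z = Z) : ∃ r : ℂ, Z * Z = r • E := by
  by_cases h0 : Z = 0
  · exact ⟨0, by rw [h0, zero_smul, mul_zero]⟩
  obtain ⟨x⟩ := ‹Nonempty D›
  haveI : Nonempty D := ⟨x⟩
  have h1 : Z x ≠ 0 := hc.ne hZ h0 x
  obtain ⟨t, ht⟩ : ∃ t : ℝ, t = ‖Z x‖ := ⟨_, rfl⟩
  have ht0 : t ≠ 0 := by rw [ht]; exact norm_ne_zero_iff.2 h1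
  have hZ2 : S2 ω Z := by
    rw [← hZE]
    exact hc.s2_left hZ h.s2
  obtain ⟨P, hP, hP2, hP3, hP4, hP5, hP6, hP7⟩ := hc.exists_proj (Y := ((t⁻¹ : ℝ) : ℂ) • Z)
    (SMulMemClass.smul_mem _ hZ) (hZ2.smul _) (by
      rw [star_smul, hs, RCLike.star_def, Complex.conj_ofReal]) (fun y => by
      change ‖((t⁻¹ : ℝ) : ℂ) • (Z y)‖ = 1
      rw [norm_smul, Complex.norm_real, norm_inv, hc.nrm _ hZ y x, ← ht, Real.norm_eq_abs,
        abs_of_nonneg (by rw [ht]; exact norm_nonneg _), inv_mul_cancel₀ ht0])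
  have hPE : P = E := h.mnl P ⟨hP, hP2, hP3, hP4, hP5⟩ (hP7 E (by rw [smul_mul_assoc, hZE]))
  rw [hPE, mul_assoc, smul_mul_assoc, smul_mul_assoc, hZE, mul_smul_comm, smul_smul] at hP6
  refine ⟨((t : ℝ) : ℂ) * ((t : ℝ) : ℂ), ?_⟩
  rw [← hP6, smul_smul]
  have e : ((t : ℝ) : ℂ) * ((t : ℝ) : ℂ) * (((t⁻¹ : ℝ) : ℂ) * ((t⁻¹ : ℝ) : ℂ)) = 1 := by
    have : ((t : ℝ) : ℂ) ≠ 0 := by exact_mod_cast ht0
    push_cast
    field_simp
  rw [e, one_smul]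

theorem Mnl.sa_scalar [Nonempty D] (hc : Cor ω 𝔅) (h : Mnl ω 𝔅 E) {Z : D → K →L[ℂ] K}
    (hZ : Z ∈ 𝔅) (hZE : Z * E = Z) (hs : star Z = Z) : ∃ r : ℂ, Z = r • E := by
  obtain ⟨r, hr⟩ := h.sq hc hZ hZE hs
  obtain ⟨s, hs'⟩ := h.sq hc (Z := Z + E) (add_mem hZ h.mem) (by rw [add_mul, hZE, h.id])
    (by rw [star_add, hs, h.sa])
  have hEZ : E * Z = Z := by
    have h1 := congrArg star hZE
    rwa [star_mul, hs, h.sa] at h1
  rw [mul_add, add_mul, add_mul, hr, hZE, hEZ, h.id] at hs'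
  refine ⟨(s - r - 1) / 2, ?_⟩
  have h1 : (2 : ℂ) • Z = (s - r - 1) • E := by
    rw [sub_smul, sub_smul, one_smul, ← hs', two_smul]
    abel
  have h2 : Z = (1 / 2 : ℂ) • ((2 : ℂ) • Z) := by rw [smul_smul]; norm_num
  rw [h2, h1, smul_smul]
  congr 1
  ring

/-- **The corner of a minimal projection is scalar.** -/
theorem Mnl.scalar [Nonempty D] (hc : Cor ω 𝔅) (h : Mnl ω 𝔅 E) {X : D → K →L[ℂ] K}
    (hX : X ∈ 𝔅) : ∃ r : ℂ, E * X * E = r • E := by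
  have key : ∀ X : D → K →L[ℂ] K, X ∈ 𝔅 → star X = X → ∃ r : ℂ, E * X * E = r • E := by
    intro X hX hs
    refine h.sa_scalar hc (mul_mem (mul_mem h.mem hX) h.mem) (by rw [mul_assoc, h.id]) ?_
    rw [star_mul, star_mul, h.sa, hs, mul_assoc]
  obtain ⟨r, hr⟩ := key (X + star X) (add_mem hX (star_mem hX)) (by
    rw [star_add, star_star, add_comm])
  obtain ⟨s, hs⟩ := key (Complex.I • (X - star X))
    (SMulMemClass.smul_mem _ (sub_mem hX (star_mem hX))) (by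
    rw [star_smul, star_sub, star_star, RCLike.star_def, Complex.conj_I, neg_smul, ← smul_neg,
      neg_sub])
  refine ⟨(r - Complex.I * s) / 2, ?_⟩
  have e1 : X = (1 / 2 : ℂ) • ((X + star X) + (-Complex.I) • (Complex.I • (X - star X))) := by
    rw [smul_smul, neg_mul, Complex.I_mul_I, neg_neg, one_smul]
    have e2 : X + star X + (X - star X) = (2 : ℂ) • X := by rw [two_smul]; abel
    rw [e2, smul_smul]
    norm_num
  have e3 : E * X * E = (1 / 2 : ℂ) • (E * (X + star X) * E +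
      (-Complex.I) • (E * (Complex.I • (X - star X)) * E)) := by
    conv_lhs => rw [e1]
    rw [mul_smul_comm, smul_mul_assoc, mul_add, add_mul, mul_smul_comm (-Complex.I),
      smul_mul_assoc (-Complex.I)]
  rw [e3, hr, hs, smul_smul, ← add_smul, smul_smul]
  congr 1
  ring

end prj

/-! ### Bessel's inequality and the maximal family -/

section fam

variable {D K : Type} [NormedAddCommGroup K] [InnerProductSpace ℂ K] [CompleteSpace K]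
  {ω : K} {𝔅 : StarSubalgebra ℂ (D → K →L[ℂ] K)} {E : D → K →L[ℂ] K}

/-- Bessel's inequality for orthogonal fields. -/
theorem Cor.bessel (hc : Cor ω 𝔅) {ι : Type} [Fintype ι] [DecidableEq ι]
    (T : ι → D → K →L[ℂ] K) (hT : ∀ i, T i ∈ 𝔅) (hT2 : ∀ i, S2 ω (T i)) {φ : ℝ} (hφ : 0 ≤ φ)
    (ho : ∀ i j, ip ω (T i) (T j) = if i = j then (φ : ℂ) else 0) (x₀ : D) (v : K) :
    ∑ i, ‖star (T i x₀) v‖ ^ 2 ≤ φ * ‖v‖ ^ 2 := by
  obtain ⟨ζ, hζ⟩ : ∃ ζ : ι → K, ∀ i, ζ i = star (T i x₀) v := ⟨_, fun i => rfl⟩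
  obtain ⟨S, hS⟩ : ∃ S : ℝ, S = ∑ i, ‖ζ i‖ ^ 2 := ⟨_, rfl⟩
  have hS0 : 0 ≤ S := by rw [hS]; positivity
  have hgoal : ∑ i, ‖star (T i x₀) v‖ ^ 2 = S := by
    rw [hS]
    exact Finset.sum_congr rfl fun i _ => by rw [hζ]
  rw [hgoal]
  -- the vector `u x = ∑ T_i x ζ_i`
  have hsum : ∀ i j, Summable fun x => ⟪T i x (ζ i), T j x (ζ j)⟫_ℂ := fun i j =>
    inner_summable (hc.f1 _ (hT i) _ (hT i) (hT2 i) (hT2 i) (ζ i) (ζ i)).1
      (hc.f1 _ (hT j) _ (hT j) (hT2 j) (hT2 j) (ζ j) (ζ j)).1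
  have hpt : ∀ x, (((‖∑ i, T i x (ζ i)‖ ^ 2 : ℝ)) : ℂ) = ∑ i, ∑ j, ⟪T i x (ζ i), T j x (ζ j)⟫_ℂ := by
    intro x
    have h1 : ⟪∑ i, T i x (ζ i), ∑ i, T i x (ζ i)⟫_ℂ = ((‖∑ i, T i x (ζ i)‖ ^ 2 : ℝ) : ℂ) := by
      rw [inner_self_eq_norm_sq_to_K]
      norm_cast
    rw [← h1, sum_inner]
    exact Finset.sum_congr rfl fun i _ => inner_sum _ _ _
  have hs1 : Summable fun x => (((‖∑ i, T i x (ζ i)‖ ^ 2 : ℝ)) : ℂ) := by
    simp only [hpt]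
    exact summable_sum fun i _ => summable_sum fun j _ => hsum i j
  have htot : ∑' x, (((‖∑ i, T i x (ζ i)‖ ^ 2 : ℝ)) : ℂ) = ((φ * S : ℝ) : ℂ) := by
    simp only [hpt]
    rw [Summable.tsum_finsetSum fun i _ => summable_sum fun j _ => hsum i j]
    have h2 : ∀ i, ∑' x, ∑ j, ⟪T i x (ζ i), T j x (ζ j)⟫_ℂ = (φ : ℂ) * ((‖ζ i‖ ^ 2 : ℝ) : ℂ) := by
      intro i
      rw [Summable.tsum_finsetSum fun j _ => hsum i j]
      have h3 : ∀ j, ∑' x, ⟪T i x (ζ i), T j x (ζ j)⟫_ℂ =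
          (if i = j then (φ : ℂ) else 0) * ⟪ζ i, ζ j⟫_ℂ := fun j => by
        rw [(hc.f1 _ (hT i) _ (hT j) (hT2 i) (hT2 j) (ζ i) (ζ j)).2, ho]
      simp only [h3, ite_mul, zero_mul, Finset.sum_ite_eq, Finset.mem_univ, if_true]
      rw [inner_self_eq_norm_sq_to_K]
      push_cast
      rfl
    simp only [h2]
    rw [← Finset.mul_sum, hS]
    push_cast
    rfl
  have hs2 : Summable fun x => ‖∑ i, T i x (ζ i)‖ ^ 2 := by
    exact_mod_cast hs1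
  have htot' : ∑' x, ‖∑ i, T i x (ζ i)‖ ^ 2 = φ * S := by
    have h4 : ((∑' x, ‖∑ i, T i x (ζ i)‖ ^ 2 : ℝ) : ℂ) = ((φ * S : ℝ) : ℂ) := by
      rw [Complex.ofReal_tsum]
      exact htot
    exact_mod_cast h4
  have hle : ‖∑ i, T i x₀ (ζ i)‖ ^ 2 ≤ φ * S := by
    rw [← htot']
    exact hs2.le_tsum x₀ fun y _ => by positivity
  have hin : ((S : ℝ) : ℂ) = ⟪v, ∑ i, T i x₀ (ζ i)⟫_ℂ := by
    rw [inner_sum, hS]
    push_cast
    refine Finset.sum_congr rfl fun i _ => ?_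
    rw [← adjoint_inner_left, ← star_eq_adjoint, ← hζ, inner_self_eq_norm_sq_to_K]
    norm_cast
  have hS' : S ≤ ‖v‖ * ‖∑ i, T i x₀ (ζ i)‖ := by
    have h5 : ‖((S : ℝ) : ℂ)‖ ≤ ‖v‖ * ‖∑ i, T i x₀ (ζ i)‖ := by
      rw [hin]
      exact norm_inner_le_norm _ _
    rwa [Complex.norm_real, Real.norm_eq_abs, abs_of_nonneg hS0] at h5
  rcases hS0.eq_or_lt with h6 | h6
  · rw [← h6]
    positivity
  · have h9 : S ^ 2 ≤ ‖v‖ ^ 2 * (φ * S) := by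
      calc S ^ 2 ≤ (‖v‖ * ‖∑ i, T i x₀ (ζ i)‖) ^ 2 := by gcongr
        _ = ‖v‖ ^ 2 * ‖∑ i, T i x₀ (ζ i)‖ ^ 2 := by ring
        _ ≤ _ := by gcongr
    have h10 : S * S ≤ (φ * ‖v‖ ^ 2) * S := by nlinarith
    exact le_of_mul_le_mul_right h10 h6

end fam

end Vale.Agent.P092.H710.Mix
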