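import Vale.Agent.P092.H710.Mix.Core2

/-!
P092, [MIX] (M1) = [T-DENSE], helper710: the central projection.
-/

set_option linter.all false

open scoped InnerProductSpace Topology
open Filter ContinuousLinearMap

namespace Vale.Agent.P092.H710.Mix

section fam

variable {D K : Type} [NormedAddCommGroup K] [InnerProductSpace ℂ K] [CompleteSpace K]
  {ω : K} {𝔅 : StarSubalgebra ℂ (D → K →L[ℂ] K)} {E : D → K →L[ℂ] K}

/-- partial isometries with initial projection `E` and orthogonal ranges -/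
structure Fam (ω : K) (𝔅 : StarSubalgebra ℂ (D → K →L[ℂ] K)) (E : D → K →L[ℂ] K) (n : ℕ)
    (u : Fin n → D → K →L[ℂ] K) : Prop where
  mem : ∀ k, u k ∈ 𝔅
  s2 : ∀ k, S2 ω (u k)
  ort : ∀ k l, star (u k) * u l = if k = l then E else 0

theorem ip_eq (ζ : K) (a b : D → K →L[ℂ] K) : ip ζ a b = ∑' x, ⟪ζ, (star a * b) x ζ⟫_ℂ := by
  refine tsum_congr fun x => ?_
  change _ = ⟪ζ, (star (a x)) (b x ζ)⟫_ℂ
  rw [star_eq_adjoint, adjoint_inner_right]

theorem eq_zero_of_star_mul {w : D → K →L[ℂ] K} (h : star w * w = 0) : w = 0 := by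
  funext x
  have h1 : star (w x) * w x = 0 := congrFun h x
  exact CStarRing.star_mul_self_eq_zero_iff (w x) |>.1 h1

theorem Fam.mulE {n : ℕ} {u : Fin n → D → K →L[ℂ] K} (hu : Fam ω 𝔅 E n u) (hE : Prj ω 𝔅 E)
    (k : Fin n) : u k * E = u k := by
  have h1 : star (u k) * u k = E := by rw [hu.ort, if_pos rfl]
  have h2 : star (u k - u k * E) * (u k - u k * E) = 0 := by
    rw [star_sub, star_mul, hE.sa, mul_sub, sub_mul, sub_mul, h1, mul_assoc E, h1,
      ← mul_assoc (star (u k)), h1, mul_assoc E, ← mul_assoc (star (u k)), h1, hE.id, hE.id]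
    abel
  exact (sub_eq_zero.1 (eq_zero_of_star_mul h2)).symm

theorem Fam.Estar {n : ℕ} {u : Fin n → D → K →L[ℂ] K} (hu : Fam ω 𝔅 E n u) (hE : Prj ω 𝔅 E)
    (k : Fin n) : E * star (u k) = star (u k) := by
  have h1 := congrArg star (hu.mulE hE k)
  rwa [star_mul, hE.sa] at h1

theorem Fam.ip_T [Nonempty D] (hc : Cor ω 𝔅) {n : ℕ} {u : Fin n → D → K →L[ℂ] K}
    (hu : Fam ω 𝔅 E n u) (hE : Prj ω 𝔅 E) (k l k' l' : Fin n) :
    ip ω (u k * star (u l)) (u k' * star (u l')) =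
      if (k, l) = (k', l') then (nn ω E : ℂ) else 0 := by
  have h1 : ip ω (u k * star (u l)) (u k' * star (u l')) =
      if k = k' then ip ω (star (u l)) (star (u l')) else 0 := by
    rw [ip_eq]
    have e1 : star (u k * star (u l)) * (u k' * star (u l')) =
        u l * (star (u k) * u k') * star (u l') := by
      rw [star_mul, star_star]
      simp only [mul_assoc]
    rw [e1, hu.ort]
    split_ifs with hk
    · rw [mul_assoc, hu.Estar hE, ip_eq, star_star]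
    · simp
  have h2 : ip ω (star (u l)) (star (u l')) = if l = l' then (nn ω E : ℂ) else 0 := by
    rw [hc.tr' _ (hu.mem l) _ (hu.mem l') (hu.s2 l) (hu.s2 l'), ip_eq, hu.ort]
    split_ifs with h3 h4 h4
    · rw [← ip_self, ip_eq, hE.sa, hE.id]
    · exact absurd h3.symm h4
    · exact absurd h4.symm h3
    · simp
  rw [h1, h2]
  by_cases hk : k = k'
  · by_cases hl : l = l'
    · rw [if_pos hk, if_pos hl, if_pos (by rw [hk, hl])]
    · rw [if_pos hk, if_neg hl, if_neg (fun h => hl (congrArg Prod.snd h))]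
  · rw [if_neg hk, if_neg (fun h => hk (congrArg Prod.fst h))]

/-- The number of equivalent orthogonal projections is at most the trace. -/
theorem Fam.le [Nonempty D] (hc : Cor ω 𝔅) {n : ℕ} {u : Fin n → D → K →L[ℂ] K}
    (hu : Fam ω 𝔅 E n u) (hE : Prj ω 𝔅 E) : (n : ℝ) ≤ nn ω E := by
  rcases Nat.eq_zero_or_pos n with h0 | h0
  · rw [h0, Nat.cast_zero]
    exact nn_nonneg _ _
  obtain ⟨x⟩ := ‹Nonempty D›
  haveI : Nonempty D := ⟨x⟩
  obtain ⟨ζ, hζ1, hζ⟩ := hE.exists_vec hc x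
  have hiso : ∀ l, ‖u l x ζ‖ ^ 2 = 1 := by
    intro l
    have h1 : ((‖u l x ζ‖ ^ 2 : ℝ) : ℂ) = 1 := by
      have h2 : ⟪u l x ζ, u l x ζ⟫_ℂ = ((‖u l x ζ‖ ^ 2 : ℝ) : ℂ) := by
        rw [inner_self_eq_norm_sq_to_K]
        norm_cast
      have h3 : ⟪u l x ζ, u l x ζ⟫_ℂ = ⟪ζ, E x ζ⟫_ℂ := by
        have h4 : (star (u l) * u l) x = E x := by rw [hu.ort, if_pos rfl]
        rw [← h4]
        change _ = ⟪ζ, (star (u l x)) (u l x ζ)⟫_ℂ
        rw [star_eq_adjoint, adjoint_inner_right]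
      rw [← h2, h3, hζ, inner_self_eq_norm_sq_to_K, hζ1]
      simp
    exact_mod_cast h1
  have hv : ‖u ⟨0, h0⟩ x ζ‖ ^ 2 = 1 := hiso _
  have h1 := hc.bessel (ι := Fin n × Fin n) (fun i => u i.1 * star (u i.2))
    (fun i => mul_mem (hu.mem _) (star_mem (hu.mem _)))
    (fun i => hc.s2_right (hu.mem _) (star_mem (hu.mem _)) (hu.s2 _)) (nn_nonneg ω E)
    (fun i j => hu.ip_T hc hE i.1 i.2 j.1 j.2) x (u ⟨0, h0⟩ x ζ)
  rw [hv, mul_one] at h1
  refine le_trans (le_of_eq ?_) h1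
  have h2 : ∀ i : Fin n × Fin n, ‖star ((u i.1 * star (u i.2)) x) (u ⟨0, h0⟩ x ζ)‖ ^ 2 =
      if i.1 = ⟨0, h0⟩ then 1 else 0 := by
    intro i
    have h3 : star ((u i.1 * star (u i.2)) x) (u ⟨0, h0⟩ x ζ) =
        u i.2 x ((star (u i.1) * u ⟨0, h0⟩) x ζ) := by
      have h4 : star ((u i.1 * star (u i.2)) x) = u i.2 x * star (u i.1 x) := by
        change star (u i.1 x * star (u i.2 x)) = _
        rw [star_mul, star_star]
      rw [h4]
      rfl
    rw [h3, hu.ort]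
    split_ifs with h5
    · rw [hζ, hiso]
    · simp
  rw [Finset.sum_congr rfl fun i _ => h2 i, Fintype.sum_prod_type]
  have h5 : ∀ y : Fin n, (∑ _w : Fin n, if y = ⟨0, h0⟩ then (1 : ℝ) else 0) =
      if y = ⟨0, h0⟩ then (n : ℝ) else 0 := fun y => by
    split_ifs <;> simp
  simp only [h5, Finset.sum_ite_eq', Finset.mem_univ, if_true]

theorem exists_max [Nonempty D] (hc : Cor ω 𝔅) (hE : Prj ω 𝔅 E) :
    ∃ (n : ℕ) (u : Fin (n + 1) → D → K →L[ℂ] K), Fam ω 𝔅 E (n + 1) u ∧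
      ¬ ∃ u', Fam ω 𝔅 E (n + 1 + 1) u' := by
  classical
  have h1 : ∃ m, ¬ ∃ u, Fam ω 𝔅 E (m + 1 + 1) u := by
    obtain ⟨m, hm⟩ := exists_nat_gt (nn ω E)
    refine ⟨m, fun ⟨u, hu⟩ => ?_⟩
    have h2 := hu.le hc hE
    push_cast at h2
    linarith
  have h2 : ∃ u, Fam ω 𝔅 E (0 + 1) u := ⟨fun _ => E, fun _ => hE.mem, fun _ => hE.s2, fun k l => by
    have e : k = l := Fin.ext (by have := k.2; have := l.2; omega)
    rw [if_pos e, hE.sa, hE.id]⟩
  obtain ⟨N, hN, hmin⟩ : ∃ N, (¬ ∃ u, Fam ω 𝔅 E (N + 1 + 1) u) ∧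
      ∀ m < N, ∃ u, Fam ω 𝔅 E (m + 1 + 1) u :=
    ⟨Nat.find h1, Nat.find_spec h1, fun m hm => not_not.1 (Nat.find_min h1 hm)⟩
  rcases Nat.eq_zero_or_pos N with h0 | h0
  · subst h0
    obtain ⟨u, hu⟩ := h2
    exact ⟨0, u, hu, hN⟩
  · obtain ⟨M, rfl⟩ : ∃ M, N = M + 1 := ⟨N - 1, by omega⟩
    obtain ⟨u, hu⟩ := hmin M (by omega)
    exact ⟨M + 1, u, hu, hN⟩

/-- **The central projection.** -/
theorem Cor.exists_central [Nonempty D] (hc : Cor ω 𝔅) {a : D → K →L[ℂ] K} (ha : a ∈ 𝔅)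
    (ha2 : S2 ω a) (ha0 : a ≠ 0) :
    ∃ z, Prj ω 𝔅 z ∧ (∀ X ∈ 𝔅, X * z = z * X) ∧
      ∀ q ∈ 𝔅, q * q = q → star q = q → (∀ X ∈ 𝔅, X * q = q * X) → q * z = q → q = 0 ∨ q = z := by
  classical
  obtain ⟨E, hE⟩ := hc.exists_mnl ha ha2 ha0
  have hP := hE.toPrj
  obtain ⟨x⟩ := ‹Nonempty D›
  haveI : Nonempty D := ⟨x⟩
  obtain ⟨n, u, hu, hmax⟩ := exists_max hc hP
  obtain ⟨z, hz⟩ : ∃ z, z = ∑ k, u k * star (u k) := ⟨_, rfl⟩
  have hzm : z ∈ 𝔅 := by
    rw [hz]
    exact sum_mem fun k _ => mul_mem (hu.mem k) (star_mem (hu.mem k))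
  have hz2 : S2 ω z := by
    rw [hz]
    exact S2.sum _ _ fun k _ => hc.s2_right (hu.mem k) (star_mem (hu.mem k)) (hu.s2 k)
  have hzs : star z = z := by
    rw [hz, star_sum]
    exact Finset.sum_congr rfl fun k _ => by rw [star_mul, star_star]
  have hzu : ∀ k, z * u k = u k := by
    intro k
    rw [hz, Finset.sum_mul, Finset.sum_eq_single k]
    · rw [mul_assoc, hu.ort, if_pos rfl, hu.mulE hP]
    · intro l _ hl
      rw [mul_assoc, hu.ort, if_neg hl, mul_zero]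
    · intro h
      exact absurd (Finset.mem_univ _) h
  have huz : ∀ k, star (u k) * z = star (u k) := by
    intro k
    have h1 := congrArg star (hzu k)
    rwa [star_mul, hzs] at h1
  have hzz : z * z = z := by
    have h1 : z * z = ∑ k, u k * star (u k) * z := by rw [← Finset.sum_mul, ← hz]
    rw [h1, hz]
    refine Finset.sum_congr rfl fun k _ => ?_
    rw [← hz, mul_assoc, huz]
  have hz0 : z ≠ 0 := by
    intro h0
    have h1 := hzu 0
    rw [h0, zero_mul] at h1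
    have h2 := hu.ort 0 0
    rw [if_pos rfl, ← h1, mul_zero] at h2
    exact hP.ne h2.symm
  -- `(1 - z) X u_k = 0`
  have hkey : ∀ X ∈ 𝔅, ∀ k, (1 - z) * X * u k = 0 := by
    intro X hX k
    by_contra hne
    obtain ⟨Y, hY⟩ : ∃ Y, Y = (1 - z) * X * u k := ⟨_, rfl⟩
    rw [← hY] at hne
    have h1z : (1 - z) ∈ 𝔅 := sub_mem (one_mem 𝔅) hzm
    have hYm : Y ∈ 𝔅 := by
      rw [hY]
      exact mul_mem (mul_mem h1z hX) (hu.mem k)
    have hY2 : S2 ω Y := by
      rw [hY]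
      exact hc.s2_left (mul_mem h1z hX) (hu.s2 k)
    have hYE : Y * E = Y := by rw [hY, mul_assoc, hu.mulE hP]
    obtain ⟨r, hr⟩ := hE.scalar hc (X := star Y * Y) (mul_mem (star_mem hYm) hYm)
    have hEY : E * star Y = star Y := by
      have h1 := congrArg star hYE
      rwa [star_mul, hP.sa] at h1
    have hr' : star Y * Y = r • E := by
      rw [← hr, ← mul_assoc, hEY, mul_assoc, hYE]
    -- r is a positive real
    obtain ⟨ζ, hζ1, hζ⟩ := hP.exists_vec hc x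
    have hrr : r = ((‖Y x ζ‖ ^ 2 : ℝ) : ℂ) := by
      have h1 : ⟪Y x ζ, Y x ζ⟫_ℂ = ((‖Y x ζ‖ ^ 2 : ℝ) : ℂ) := by
        rw [inner_self_eq_norm_sq_to_K]
        norm_cast
      have h2 : ⟪Y x ζ, Y x ζ⟫_ℂ = ⟪ζ, (star Y * Y) x ζ⟫_ℂ := by
        change _ = ⟪ζ, (star (Y x)) (Y x ζ)⟫_ℂ
        rw [star_eq_adjoint, adjoint_inner_right]
      rw [← h1, h2, hr']
      change r = ⟪ζ, r • (E x ζ)⟫_ℂ
      rw [hζ, inner_smul_right, inner_self_eq_norm_sq_to_K, hζ1]
      simp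
    have ht0 : ‖Y x ζ‖ ≠ 0 := by
      intro h0
      rw [h0] at hrr
      have h1 : star Y * Y = 0 := by
        rw [hr', hrr]
        simp
      exact hne (eq_zero_of_star_mul h1)
    obtain ⟨t, ht⟩ : ∃ t : ℝ, t = ‖Y x ζ‖ := ⟨_, rfl⟩
    rw [← ht] at ht0 hrr
    refine hmax ⟨Fin.snoc u (((t⁻¹ : ℝ) : ℂ) • Y), ?_, ?_, ?_⟩
    · intro j
      refine Fin.lastCases ?_ (fun i => ?_) j
      · rw [Fin.snoc_last]
        exact SMulMemClass.smul_mem _ hYm
      · rw [Fin.snoc_castSucc]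
        exact hu.mem i
    · intro j
      refine Fin.lastCases ?_ (fun i => ?_) j
      · rw [Fin.snoc_last]
        exact hY2.smul _
      · rw [Fin.snoc_castSucc]
        exact hu.s2 i
    · have hYY : star (((t⁻¹ : ℝ) : ℂ) • Y) * (((t⁻¹ : ℝ) : ℂ) • Y) = E := by
        rw [star_smul, RCLike.star_def, Complex.conj_ofReal, smul_mul_assoc, mul_smul_comm,
          smul_smul, hr', hrr, smul_smul]
        have e : ((t⁻¹ : ℝ) : ℂ) * ((t⁻¹ : ℝ) : ℂ) * ((t ^ 2 : ℝ) : ℂ) = 1 := by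
          have : ((t : ℝ) : ℂ) ≠ 0 := by exact_mod_cast ht0
          push_cast
          field_simp
        rw [e, one_smul]
      have huY : ∀ i, star (u i) * (((t⁻¹ : ℝ) : ℂ) • Y) = 0 := by
        intro i
        have h1 : star (u i) * Y = 0 := by
          rw [hY, ← mul_assoc, ← mul_assoc, mul_sub, mul_one, huz, sub_self, zero_mul, zero_mul]
        rw [mul_smul_comm, h1, smul_zero]
      have hYu : ∀ i, star (((t⁻¹ : ℝ) : ℂ) • Y) * u i = 0 := by
        intro i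
        have h1 := congrArg star (huY i)
        rwa [star_mul, star_star, star_zero] at h1
      intro j l
      refine Fin.lastCases ?_ (fun i => ?_) j
      · refine Fin.lastCases ?_ (fun i' => ?_) l
        · rw [Fin.snoc_last, if_pos rfl, hYY]
        · rw [Fin.snoc_last, Fin.snoc_castSucc, hYu, if_neg]
          exact (Fin.castSucc_lt_last i').ne'
      · refine Fin.lastCases ?_ (fun i' => ?_) l
        · rw [Fin.snoc_last, Fin.snoc_castSucc, huY, if_neg]
          exact (Fin.castSucc_lt_last i).ne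
        · rw [Fin.snoc_castSucc, Fin.snoc_castSucc, hu.ort]
          by_cases h2 : i = i'
          · rw [if_pos h2, if_pos (by rw [h2])]
          · rw [if_neg h2, if_neg (fun h => h2 (Fin.castSucc_injective _ h))]
  have hXz : ∀ X ∈ 𝔅, X * z = z * X * z := by
    intro X hX
    have h1 : (1 - z) * X * z = 0 := by
      have h2 : (1 - z) * X * z = ∑ k, (1 - z) * X * (u k * star (u k)) := by
        rw [← Finset.mul_sum, ← hz]
      rw [h2]
      refine Finset.sum_eq_zero fun k _ => ?_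
      rw [← mul_assoc, hkey X hX k, zero_mul]
    rw [sub_mul, sub_mul, one_mul, sub_eq_zero] at h1
    exact h1
  have hcen : ∀ X ∈ 𝔅, X * z = z * X := by
    intro X hX
    have h1 := congrArg star (hXz (star X) (star_mem hX))
    rw [star_mul, star_mul, star_mul, star_star, hzs, ← mul_assoc] at h1
    exact (hXz X hX).trans h1.symm
  refine ⟨z, ⟨hzm, hz2, hzs, hzz, hz0⟩, hcen, fun q hq hqq hqs hqc hqz => ?_⟩
  obtain ⟨c, hcE⟩ := hE.scalar hc hq
  have h1 : q * E = c • E := by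
    rw [← hcE, ← hqc E hP.mem, mul_assoc, ← hqc E hP.mem, ← mul_assoc, hP.id]
  have h2 : c * c = c := by
    have h3 : q * (q * E) = q * E := by rw [← mul_assoc, hqq]
    rw [h1, mul_smul_comm, h1, smul_smul] at h3
    have h4 : (c * c - c) • E = 0 := by rw [sub_smul, h3, sub_self]
    rcases smul_eq_zero.1 h4 with h5 | h5
    · exact sub_eq_zero.1 h5
    · exact absurd h5 hP.ne
  have h3 : ∀ k, q * u k = c • u k := by
    intro k
    rw [← hu.mulE hP k, ← mul_assoc, ← hqc (u k) (hu.mem k), mul_assoc, h1, mul_smul_comm]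
  have h4 : q = c • z := by
    rw [← hqz]
    conv_lhs => rw [hz]
    conv_rhs => rw [hz]
    rw [Finset.mul_sum, Finset.smul_sum]
    exact Finset.sum_congr rfl fun k _ => by rw [← mul_assoc, h3, smul_mul_assoc]
  have h5 : c * (c - 1) = 0 := by rw [mul_sub, h2, mul_one, sub_self]
  rcases mul_eq_zero.1 h5 with h6 | h6
  · left
    rw [h4, h6, zero_smul]
  · right
    rw [h4, sub_eq_zero.1 h6, one_smul]

end fam

end Vale.Agent.P092.H710.Mix
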