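import Vale.Agent.P092.H710.Mix.Core3

/-!
P092, [MIX] (M1) = [T-DENSE], helper710: minimal central projections and symmetries of the algebra.
-/

set_option linter.all false

open scoped InnerProductSpace Topology
open Filter ContinuousLinearMap

namespace Vale.Agent.P092.H710.Mix

section cm

variable {D K : Type} [NormedAddCommGroup K] [InnerProductSpace ℂ K] [CompleteSpace K]

/-- minimal central projections of `𝔅` -/
structure CM (𝔅 : StarSubalgebra ℂ (D → K →L[ℂ] K)) (z : D → K →L[ℂ] K) : Prop where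
  mem : z ∈ 𝔅
  id : z * z = z
  sa : star z = z
  ne : z ≠ 0
  cen : ∀ X ∈ 𝔅, X * z = z * X
  mnl : ∀ q ∈ 𝔅, q * q = q → star q = q → (∀ X ∈ 𝔅, X * q = q * X) → q * z = q → q = 0 ∨ q = z

/-- automorphisms of `𝔅` -/
structure Sy (𝔅 : StarSubalgebra ℂ (D → K →L[ℂ] K))
    (φ ψ : (D → K →L[ℂ] K) → (D → K →L[ℂ] K)) : Prop where
  mem : ∀ b ∈ 𝔅, φ b ∈ 𝔅
  mem' : ∀ b ∈ 𝔅, ψ b ∈ 𝔅
  mul : ∀ a b, φ (a * b) = φ a * φ b
  mul' : ∀ a b, ψ (a * b) = ψ a * ψ b
  str : ∀ b, φ (star b) = star (φ b)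
  str' : ∀ b, ψ (star b) = star (ψ b)
  zero : φ 0 = 0
  zero' : ψ 0 = 0
  li : ∀ b, ψ (φ b) = b
  ri : ∀ b, φ (ψ b) = b

variable {𝔅 : StarSubalgebra ℂ (D → K →L[ℂ] K)} {z z' : D → K →L[ℂ] K}

theorem CM.map {φ ψ : (D → K →L[ℂ] K) → (D → K →L[ℂ] K)} (h : Sy 𝔅 φ ψ) (hz : CM 𝔅 z) :
    CM 𝔅 (φ z) where
  mem := h.mem _ hz.mem
  id := by rw [← h.mul, hz.id]
  sa := by rw [← h.str, hz.sa]
  ne := fun h0 => hz.ne (by rw [← h.li z, h0, h.zero'])
  cen X hX := by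
    rw [← h.ri X, ← h.mul, ← h.mul, hz.cen _ (h.mem' _ hX)]
  mnl q hq hqq hqs hqc hqz := by
    have h1 := hz.mnl (ψ q) (h.mem' _ hq) (by rw [← h.mul', hqq]) (by rw [← h.str', hqs])
      (fun X hX => by
        have h2 := congrArg ψ (hqc (φ X) (h.mem _ hX))
        rwa [h.mul', h.mul', h.li] at h2)
      (by
        have h2 := congrArg ψ hqz
        rwa [h.mul', h.li] at h2)
    rcases h1 with h1 | h1
    · left
      rw [← h.ri q, h1, h.zero]
    · right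
      rw [← h.ri q, h1]

theorem CM.eq_of (hz : CM 𝔅 z) (hz' : CM 𝔅 z') (h : z * z' ≠ 0) : z = z' := by
  have hc : z * z' = z' * z := hz'.cen z hz.mem
  have h1 : z * z' * (z * z') = z * z' := by
    calc z * z' * (z * z') = z * (z' * z) * z' := by simp only [mul_assoc]
      _ = z * (z * z') * z' := by rw [hc]
      _ = (z * z) * (z' * z') := by simp only [mul_assoc]
      _ = z * z' := by rw [hz.id, hz'.id]
  have h2 : star (z * z') = z * z' := by rw [star_mul, hz.sa, hz'.sa, hc]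
  have h3 : ∀ X ∈ 𝔅, X * (z * z') = z * z' * X := fun X hX => by
    rw [← mul_assoc, hz.cen X hX, mul_assoc, hz'.cen X hX, mul_assoc]
  have hm : z * z' ∈ 𝔅 := mul_mem hz.mem hz'.mem
  rcases hz.mnl _ hm h1 h2 h3 (by rw [hc, mul_assoc, hz.id]) with h4 | h4
  · exact absurd h4 h
  rcases hz'.mnl _ hm h1 h2 h3 (by rw [mul_assoc, hz'.id]) with h5 | h5
  · exact absurd h5 h
  rw [← h4, h5]

end cm

end Vale.Agent.P092.H710.Mix
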