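import Vale.Agent.P092.H710.Mix.Brd
import Vale.Agent.P092.H710.Mix.Sym

/-!
P092, [MIX] (M1) = [T-DENSE], helper710 (text: helper25, board 9375): over a dense source place the
smooth square integrable fields on an infinite discrete target group vanish.
-/

set_option linter.all false

open scoped InnerProductSpace Topology ENNReal Pointwise
open Filter ContinuousLinearMap MeasureTheory
open Vale.Agent.P092.H160
open Vale.Agent.P092.QT (TRep)
open Vale.Agent.P092.QT.H156.Sm (Frm Fd Smo ACont L2)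
open Vale.Agent.P092.QT.H715.Q (Dbl F1)

namespace Vale.Agent.P092.H710.Mix

section maps

variable {Γ X D H K : Type} [Group Γ] [Group X] [Group D] [Group H]
  [TopologicalSpace D] [TopologicalSpace H] [IsTopologicalGroup D] [IsTopologicalGroup H]
  [NormedAddCommGroup K] [InnerProductSpace ℂ K] [CompleteSpace K]
  {ρ : X →* (K →L[ℂ] K)} {V : Γ →* (K →L[ℂ] K)} {ω : K} {ι : X →* D} {κ : Γ →* H}

/-- right translation -/
def Rt (d : D) (b : D → K →L[ℂ] K) : D → K →L[ℂ] K := fun x => b (x * d)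

/-- conjugation -/
def Th (V : Γ →* (K →L[ℂ] K)) (g : Γ) (b : D → K →L[ℂ] K) : D → K →L[ℂ] K :=
  fun x => V g * b x * V g⁻¹

theorem Th_mul (g g' : Γ) (b : D → K →L[ℂ] K) : Th V g (Th V g' b) = Th V (g * g') b := by
  funext x
  change V g * (V g' * b x * V g'⁻¹) * V g⁻¹ = V (g * g') * b x * V (g * g')⁻¹
  rw [mul_inv_rev, map_mul, map_mul]
  simp only [mul_assoc]

theorem Th_one (b : D → K →L[ℂ] K) : Th V 1 b = b := by
  funext x
  change V 1 * b x * V 1⁻¹ = b x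
  rw [inv_one, map_one, one_mul, mul_one]

theorem Th_Rt (g : Γ) (d : D) (b : D → K →L[ℂ] K) : Th V g (Rt d b) = Rt d (Th V g b) := rfl

theorem Th_add (g : Γ) (a b : D → K →L[ℂ] K) : Th V g (a + b) = Th V g a + Th V g b := by
  funext x
  change V g * (a x + b x) * V g⁻¹ = V g * a x * V g⁻¹ + V g * b x * V g⁻¹
  rw [mul_add, add_mul]

theorem Th_sum {J : Type} (s : Finset J) (g : Γ) (b : J → D → K →L[ℂ] K) :
    Th V g (∑ j ∈ s, b j) = ∑ j ∈ s, Th V g (b j) := by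
  classical
  induction s using Finset.induction_on with
  | empty =>
    funext x
    change V g * (0 : K →L[ℂ] K) * V g⁻¹ = 0
    rw [mul_zero, zero_mul]
  | insert j s hj ih => rw [Finset.sum_insert hj, Finset.sum_insert hj, Th_add, ih]

theorem sy_Rt (hF : Frm ρ V ω) (d : D) : Sy (alg ι κ hF) (Rt d) (Rt d⁻¹) where
  mem b hb := ⟨hb.1.rt d, ACont.rt hb.2 d⟩
  mem' b hb := ⟨hb.1.rt d⁻¹, ACont.rt hb.2 d⁻¹⟩
  mul a b := rfl
  mul' a b := rfl
  str b := rfl
  str' b := rfl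
  zero := rfl
  zero' := rfl
  li b := by
    funext x
    change b (x * d⁻¹ * d) = b x
    rw [inv_mul_cancel_right]
  ri b := by
    funext x
    change b (x * d * d⁻¹) = b x
    rw [mul_inv_cancel_right]

theorem sy_Th (hF : Frm ρ V ω) (g : Γ) : Sy (alg ι κ hF) (Th V g) (Th V g⁻¹) := by
  have hmul : ∀ g : Γ, ∀ a b : D → K →L[ℂ] K, Th V g (a * b) = Th V g a * Th V g b := by
    intro g a b
    funext x
    change V g * (a x * b x) * V g⁻¹ = V g * a x * V g⁻¹ * (V g * b x * V g⁻¹)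
    have h1 : V g⁻¹ * V g = 1 := hF.inv_mul g
    calc _ = V g * a x * 1 * b x * V g⁻¹ := by simp only [mul_assoc, one_mul]
      _ = V g * a x * (V g⁻¹ * V g) * b x * V g⁻¹ := by rw [h1]
      _ = _ := by simp only [mul_assoc]
  have hstar : ∀ g : Γ, ∀ b : D → K →L[ℂ] K, Th V g (star b) = star (Th V g b) := by
    intro g b
    funext x
    change V g * star (b x) * V g⁻¹ = star (V g * b x * V g⁻¹)
    rw [star_mul, star_mul, star_eq_adjoint (V g⁻¹), hF.adj, star_eq_adjoint (V g), hF.adj,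
      inv_inv, mul_assoc]
  have hzero : ∀ g : Γ, Th V g (0 : D → K →L[ℂ] K) = 0 := by
    intro g
    funext x
    change V g * (0 : K →L[ℂ] K) * V g⁻¹ = 0
    rw [mul_zero, zero_mul]
  exact
    { mem := fun b hb => ⟨hb.1.conj hF g, ACont.conj hF hb.2 g⟩
      mem' := fun b hb => ⟨hb.1.conj hF g⁻¹, ACont.conj hF hb.2 g⁻¹⟩
      mul := hmul g
      mul' := hmul g⁻¹
      str := hstar g
      str' := hstar g⁻¹
      zero := hzero g
      zero' := hzero g⁻¹
      li := fun b => by rw [Th_mul, inv_mul_cancel, Th_one]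
      ri := fun b => by rw [Th_mul, mul_inv_cancel, Th_one] }

end maps

section stab

variable {Γ H : Type} [Group Γ] [Group H] [TopologicalSpace H] [IsTopologicalGroup H]

/-- A normal subgroup which contains the inverse image of a neighbourhood has finite index. -/
theorem finiteIndex_of (κ : Γ →* H) (hκ : DenseRange κ)
    (hO : ∀ O : Subgroup H, O.Normal → IsOpen (O : Set H) → O.FiniteIndex) (S : Subgroup Γ)
    (hS : S.Normal) {U : Set H} (hU : U ∈ 𝓝 (1 : H)) (hUS : ∀ v, κ v ∈ U → v ∈ S) :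
    S.FiniteIndex := by
  obtain ⟨O, hOdef⟩ : ∃ O : Subgroup H, O = (S.map κ).topologicalClosure := ⟨_, rfl⟩
  have hOc : (O : Set H) = closure ((S.map κ : Subgroup H) : Set H) := by
    rw [hOdef]
    rfl
  have hclosed : IsClosed (O : Set H) := by
    rw [hOc]
    exact isClosed_closure
  have hmemO : ∀ s ∈ S, κ s ∈ O := fun s hs => by
    rw [← SetLike.mem_coe, hOc]
    exact subset_closure ⟨s, hs, rfl⟩
  obtain ⟨U', hU'U, hU'o, h1U'⟩ := mem_nhds_iff.1 hU
  have hsub : U' ⊆ (O : Set H) := by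
    intro h hh
    rw [hOc, mem_closure_iff]
    intro W hW hhW
    obtain ⟨v, hv⟩ := hκ.exists_mem_open (hW.inter hU'o) ⟨h, hhW, hh⟩
    exact ⟨κ v, hv.1, v, hUS v (hU'U hv.2), rfl⟩
  have hopen : IsOpen (O : Set H) :=
    Subgroup.isOpen_of_mem_nhds O (g := 1) (mem_of_superset (hU'o.mem_nhds h1U') hsub)
  have hconj : ∀ g : Γ, ∀ n ∈ O, κ g * n * (κ g)⁻¹ ∈ O := by
    intro g n hn
    have hcont : Continuous fun n : H => κ g * n * (κ g)⁻¹ := by fun_prop
    have h1 : n ∈ closure ((S.map κ : Subgroup H) : Set H) := by rw [← hOc]; exact hn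
    have h2 : (fun n : H => κ g * n * (κ g)⁻¹) '' closure ((S.map κ : Subgroup H) : Set H) ⊆
        closure ((fun n : H => κ g * n * (κ g)⁻¹) '' ((S.map κ : Subgroup H) : Set H)) :=
      image_closure_subset_closure_image hcont
    have h3 := h2 ⟨n, h1, rfl⟩
    rw [← SetLike.mem_coe, hOc]
    refine closure_mono ?_ h3
    rintro _ ⟨_, ⟨s, hs, rfl⟩, rfl⟩
    refine ⟨g * s * g⁻¹, hS.conj_mem s hs g, ?_⟩
    rw [map_mul, map_mul, map_inv]
  have hnorm : O.Normal := by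
    refine ⟨fun n hn h => ?_⟩
    obtain ⟨g, hg⟩ := hκ.exists_mem_open (hopen.preimage (f := fun y => h⁻¹ * y) (by fun_prop))
      ⟨h, by
        change h⁻¹ * h ∈ O
        rw [inv_mul_cancel]
        exact O.one_mem⟩
    have hg' : h⁻¹ * κ g ∈ O := hg
    have e : h * n * h⁻¹ = κ g * ((h⁻¹ * κ g)⁻¹ * n * (h⁻¹ * κ g)) * (κ g)⁻¹ := by group
    rw [e]
    exact hconj g _ (O.mul_mem (O.mul_mem (O.inv_mem hg') hn) hg')
  have hfi := hO O hnorm hopen
  have hcomap : O.comap κ ≤ S := by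
    intro v hv
    have h1 : κ v ∈ closure ((S.map κ : Subgroup H) : Set H) := by rw [← hOc]; exact hv
    rw [mem_closure_iff] at h1
    obtain ⟨_, hs, s, hsS, rfl⟩ := h1 ((fun y => y⁻¹ * κ v) ⁻¹' U') (hU'o.preimage (by fun_prop)) (by
      change (κ v)⁻¹ * κ v ∈ U'
      rw [inv_mul_cancel]
      exact h1U')
    have h2 : s⁻¹ * v ∈ S := hUS _ (by
      rw [map_mul, map_inv]
      exact hU'U hs)
    have h3 := S.mul_mem hsS h2
    rwa [mul_inv_cancel_left] at h3
  haveI : (O.comap κ).FiniteIndex := ⟨by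
    have h := Subgroup.relIndex_comap_ne_zero κ (J := O) (K := ⊤) (by
      rw [Subgroup.relIndex_top_right]
      exact hfi.index_ne_zero)
    rwa [Subgroup.comap_top, Subgroup.relIndex_top_right] at h⟩
  exact Subgroup.finiteIndex_of_le hcomap

end stab

section main

variable {Γ X Y D H K : Type} [Group Γ] [Group X] [Group Y] [Group D] [Group H] [Countable X]
  [TopologicalSpace D] [TopologicalSpace H] [DiscreteTopology D] [Infinite D]
  [IsTopologicalGroup D] [IsTopologicalGroup H] [MeasurableSpace D] [BorelSpace D]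
  [NormedAddCommGroup K] [InnerProductSpace ℂ K] [CompleteSpace K]
  {V W : Γ →* (K →L[ℂ] K)} {f : X →* Γ} {ρ : X →* (K →L[ℂ] K)} {f' : Y →* Γ}
  {ρ' : Y →* (K →L[ℂ] K)} {ω ω' : K} {p : Γ →* D} {κ : Γ →* H} {μ : Measure D} [μ.IsHaarMeasure]

/-- **[T-DENSE]** An infinite discrete target group carries no smooth square integrable field over a
dense source place. -/
theorem tdense (h : Dbl V W f ρ f' ρ' ω ω') (hp : Function.Surjective p) (hκ : DenseRange κ)
    (hF : F1 (p.comp f) κ ρ V ω μ)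
    (hO : ∀ O : Subgroup H, O.Normal → IsOpen (O : Set H) → O.FiniteIndex)
    {a : D → K →L[ℂ] K} (ha : Smo (p.comp f) κ ρ V ω μ a) : a = 0 := by
  classical
  by_contra h0
  have hsf : Function.Surjective f := fun g => by
    obtain ⟨x, hx, -⟩ := h.sec g
    exact ⟨x, hx⟩
  have hι : Function.Surjective (p.comp f) := hp.comp hsf
  haveI : Countable D := hι.countable
  have hc : Cor ω (alg (p.comp f) κ h.fr) := cor h.fr hι hF
  obtain ⟨z, hz, hcen, hmin⟩ := hc.exists_central (a := a) ⟨ha.toFd, ha.acont⟩ (l2_iff.1 ha.l2) h0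
  have hcm : CM (alg (p.comp f) κ h.fr) z := ⟨hz.mem, hz.id, hz.sa, hz.ne, hcen, hmin⟩
  -- square summability is stable
  have hS2T : ∀ g, S2 ω (Th V g z) := fun g =>
    l2_iff.1 (QT.H156.Sm.L2.conj (μ := μ) h.fr hz.mem.1 (l2_iff.2 hz.s2) g)
  -- every conjugate is a translate
  have htr : ∀ g, ∃ d, Th V g z = Rt d z := by
    intro g
    have hg : CM (alg (p.comp f) κ h.fr) (Th V g z) := hcm.map (sy_Th h.fr g)
    have hP : Prj ω (alg (p.comp f) κ h.fr) (Th V g z) := ⟨hg.mem, hS2T g, hg.sa, hg.id, hg.ne⟩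
    obtain ⟨ζ, hζ1, hζ⟩ := hP.exists_vec hc 1
    have h1 : ∃ d, z d ζ ≠ 0 := by
      by_contra hcon
      push Not at hcon
      have h2 := hc.sum_sq hz.mem hz.s2 ζ
      simp only [hcon, norm_zero, ne_eq, OfNat.ofNat_ne_zero, not_false_eq_true, zero_pow,
        tsum_zero, hζ1, one_pow, mul_one] at h2
      have h3 := hz.one_le hc
      linarith
    obtain ⟨d, hd⟩ := h1
    refine ⟨d, (hcm.map (sy_Rt h.fr d)).eq_of hg ?_ |>.symm⟩
    intro h2
    have h3 : (Rt d z * Th V g z) 1 ζ = 0 := by rw [h2]; rfl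
    apply hd
    have h4 : (Rt d z * Th V g z) 1 ζ = z (1 * d) (Th V g z 1 ζ) := rfl
    rw [h4, hζ, one_mul] at h3
    exact h3
  -- the stabiliser
  obtain ⟨S, hS⟩ : ∃ S : Subgroup Γ, ∀ g, g ∈ S ↔ Th V g z = z :=
    ⟨{ carrier := {g | Th V g z = z}
       mul_mem' := fun {a b} ha hb => by
         change Th V (a * b) z = z
         rw [← Th_mul, (show Th V b z = z from hb), (show Th V a z = z from ha)]
       one_mem' := Th_one z
       inv_mem' := fun {a} ha => by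
         change Th V a⁻¹ z = z
         conv_lhs => rw [← (show Th V a z = z from ha)]
         rw [Th_mul, inv_mul_cancel, Th_one] }, fun g => Iff.rfl⟩
  have hSn : S.Normal := by
    refine ⟨fun s hs g => ?_⟩
    rw [hS] at hs ⊢
    obtain ⟨d, hd⟩ := htr g⁻¹
    rw [← Th_mul, ← Th_mul, hd, Th_Rt, hs, ← hd, Th_mul, mul_inv_cancel, Th_one]
  obtain ⟨U, hU, hU1⟩ := hz.mem.2 (1 / 2) (by norm_num)
  have hUS : ∀ v, κ v ∈ U → v ∈ S := by
    intro v hv
    rw [hS]
    refine (hcm.map (sy_Th h.fr v)).eq_of hcm fun h1 => ?_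
    obtain ⟨ζ, hζ1, hζ⟩ := hz.exists_vec hc 1
    have h2 : Th V v z 1 ζ = 0 := by
      have h3 : (Th V v z * z) 1 ζ = 0 := by rw [h1]; rfl
      have h4 : (Th V v z * z) 1 ζ = Th V v z 1 (z 1 ζ) := rfl
      rwa [h4, hζ] at h3
    have h3 : ‖(V v * z 1 * V v⁻¹ - z 1) ζ‖ ≤ 1 / 2 * ‖ζ‖ :=
      (ContinuousLinearMap.le_opNorm _ _).trans
        (mul_le_mul_of_nonneg_right (hU1 v hv 1) (norm_nonneg _))
    have h4 : (V v * z 1 * V v⁻¹ - z 1) ζ = -ζ := by
      have h5 : (V v * z 1 * V v⁻¹ - z 1) ζ = Th V v z 1 ζ - z 1 ζ := rfl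
      rw [h5, h2, hζ, zero_sub]
    rw [h4, norm_neg, hζ1] at h3
    norm_num at h3
  haveI hfi : S.FiniteIndex := finiteIndex_of κ hκ hO S hSn hU hUS
  haveI : Fintype (Γ ⧸ S) := Subgroup.fintypeQuotientOfFiniteIndex
  -- the invariant projection
  obtain ⟨F, hFdef⟩ : ∃ F : Γ ⧸ S → D → K →L[ℂ] K, ∀ g : Γ, F (QuotientGroup.mk g) = Th V g z := by
    refine ⟨fun q => Quotient.liftOn' q (fun g => Th V g z) fun a b hab => ?_, fun g => rfl⟩
    rw [QuotientGroup.leftRel_apply, hS] at hab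
    change Th V a z = Th V b z
    have h1 : b = a * (a⁻¹ * b) := by group
    rw [h1, ← Th_mul, hab]
  obtain ⟨z₀, hz₀⟩ : ∃ z₀, z₀ = ∑ q, F q := ⟨_, rfl⟩
  have hinv : ∀ g, Th V g z₀ = z₀ := by
    intro g
    rw [hz₀, Th_sum]
    refine Fintype.sum_equiv (MulAction.toPerm g) _ _ fun q => ?_
    obtain ⟨g', rfl⟩ := QuotientGroup.mk_surjective q
    rw [hFdef, Th_mul]
    have e : (MulAction.toPerm g) (QuotientGroup.mk g' : Γ ⧸ S) = QuotientGroup.mk (g * g') := rfl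
    rw [e, hFdef]
  have hmem : z₀ ∈ alg (p.comp f) κ h.fr := by
    rw [hz₀]
    refine sum_mem fun q _ => ?_
    obtain ⟨g', rfl⟩ := QuotientGroup.mk_surjective q
    rw [hFdef]
    exact (sy_Th h.fr g').mem _ hz.mem
  have hs2 : S2 ω z₀ := by
    rw [hz₀]
    refine S2.sum _ _ fun q _ => ?_
    obtain ⟨g', rfl⟩ := QuotientGroup.mk_surjective q
    rw [hFdef]
    exact hS2T g'
  have hz₀z : z₀ * z = z := by
    rw [hz₀, Finset.sum_mul, Finset.sum_eq_single (QuotientGroup.mk 1 : Γ ⧸ S)]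
    · rw [hFdef, Th_one, hz.id]
    · intro q _ hq
      obtain ⟨g', rfl⟩ := QuotientGroup.mk_surjective q
      rw [hFdef]
      by_contra h1
      apply hq
      have h2 : Th V g' z = z := (hcm.map (sy_Th h.fr g')).eq_of hcm h1
      rw [← hS] at h2
      rw [QuotientGroup.eq, mul_one]
      exact S.inv_mem h2
    · intro h1
      exact absurd (Finset.mem_univ _) h1
  -- `T = z₀ 1` commutes with `ρ'`
  have hTρ : ∀ x, f x = 1 → z₀ 1 * ρ x = ρ x * z₀ 1 := by
    intro x hx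
    have h1 := hmem.1.equiv x 1
    have h2 : (p.comp f) x = 1 := by
      change p (f x) = 1
      rw [hx, map_one]
    rw [h2, one_mul] at h1
    have h3 : ρ x⁻¹ * ρ x = 1 := by rw [← map_mul, inv_mul_cancel, map_one]
    calc z₀ 1 * ρ x = ρ x * z₀ 1 * ρ x⁻¹ * ρ x := by rw [← h1]
      _ = ρ x * z₀ 1 * (ρ x⁻¹ * ρ x) := by rw [mul_assoc]
      _ = ρ x * z₀ 1 := by rw [h3, mul_one]
  have hTV : ∀ g, z₀ 1 * V g = V g * z₀ 1 := by
    intro g
    have h1 : V g * z₀ 1 * V g⁻¹ = z₀ 1 := congrFun (hinv g) 1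
    calc z₀ 1 * V g = V g * z₀ 1 * V g⁻¹ * V g := by rw [h1]
      _ = V g * z₀ 1 * (V g⁻¹ * V g) := by rw [mul_assoc]
      _ = V g * z₀ 1 := by rw [h.fr.inv_mul, mul_one]
  have hTk := (h.ker (z₀ 1)).1 hTρ
  have hT : Cmm ρ' (z₀ 1) := by
    intro y
    obtain ⟨y₀, hy1, hy2⟩ := h.sec' (f' y)
    have h1 : f' (y₀⁻¹ * y) = 1 := by rw [map_mul, map_inv, hy1, inv_mul_cancel]
    have h2 : ρ' y = ρ' y₀ * ρ' (y₀⁻¹ * y) := by rw [← map_mul, mul_inv_cancel_left]
    rw [h2, ← mul_assoc, hy2, hTV, mul_assoc, hTk _ h1, mul_assoc]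
  -- all values have the same size on `ω'`
  have hconst : ∀ d, ‖z₀ d ω'‖ = ‖z₀ 1 ω'‖ := by
    intro d
    obtain ⟨g, rfl⟩ := hp d
    obtain ⟨x, hx1, hx2⟩ := h.sec g
    have h1 := hmem.1.equiv x 1
    have h2 : (p.comp f) x = p g := by
      change p (f x) = p g
      rw [hx1]
    rw [h2, mul_one] at h1
    have h3 : ρ x⁻¹ = W g⁻¹ := by
      have h4 : ρ x⁻¹ * ρ x = 1 := by rw [← map_mul, inv_mul_cancel, map_one]
      calc ρ x⁻¹ = ρ x⁻¹ * (W g * W g⁻¹) := by rw [h.fr'.mul_inv, mul_one]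
        _ = (ρ x⁻¹ * ρ x) * W g⁻¹ := by rw [← hx2, mul_assoc]
        _ = W g⁻¹ := by rw [h4, one_mul]
    rw [h1, hx2, h3]
    change ‖W g (z₀ 1 (W g⁻¹ ω'))‖ = _
    rw [h.fr'.norm_map]
    have hA : Cmm ρ' (z₀ 1 * W g⁻¹) := by
      intro y
      rw [mul_assoc, (h.fr'.comm g⁻¹ y), ← mul_assoc, hT y, mul_assoc]
    have h5 := h.fr'.reg.norm_adjoint hA
    have h6 := h.fr'.reg.norm_adjoint hT
    have h7 : adjoint (z₀ 1 * W g⁻¹) = W g * adjoint (z₀ 1) := by
      change star (z₀ 1 * W g⁻¹) = _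
      rw [star_mul, star_eq_adjoint (W g⁻¹), h.fr'.adj, inv_inv, star_eq_adjoint]
    rw [h7] at h5
    have h8 : ‖(W g * adjoint (z₀ 1)) ω'‖ = ‖adjoint (z₀ 1) ω'‖ := h.fr'.norm_map g _
    rw [h8, h6] at h5
    exact h5.symm
  have hsum : S2 ω' z₀ := (hc.f1 z₀ hmem z₀ hmem hs2 hs2 ω' ω').1
  have hzero : z₀ 1 ω' = 0 := by
    have h1 : Summable fun _ : D => ‖z₀ 1 ω'‖ ^ 2 := by
      refine hsum.congr fun d => ?_
      rw [hconst]
    rw [summable_const_iff] at h1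
    exact norm_eq_zero.1 (pow_eq_zero_iff two_ne_zero |>.1 h1)
  have hT0 : z₀ 1 = 0 := by
    have h1 : Cmm ρ' (0 : K →L[ℂ] K) := fun y => by rw [zero_mul, mul_zero]
    refine h.fr'.reg.ext_cmm hT h1 ?_
    rw [hzero]
    rfl
  have h1 : z 1 = 0 := by
    have h2 : (z₀ * z) 1 = z 1 := congrFun hz₀z 1
    have h3 : (z₀ * z) 1 = z₀ 1 * z 1 := rfl
    rw [← h2, h3, hT0, zero_mul]
  exact hc.ne hz.mem hz.ne 1 h1

end main

end Vale.Agent.P092.H710.Mix
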