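import Vale.Agent.P092.H515.LatSl

/-!
P092, [MIX] (M1), helper710: the projection of a lattice to a noncompact quotient is infinite
(input `hi` of `not_neC`).
-/

set_option linter.all false

open MeasureTheory MeasureTheory.Measure Topology Filter
open scoped ENNReal NNReal

namespace Vale.Agent.P092.H710.Mix

open Vale.Agent.P092.H515

/-- **The projection of a lattice to a noncompact group is infinite.** -/
theorem inf_of_lat {E D : Type} [Group E] [TopologicalSpace E] [IsTopologicalGroup E] [Group D]
    [TopologicalSpace D] [IsTopologicalGroup D] [LocallyCompactSpace D]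
    [SecondCountableTopology D] [T2Space D] [NoncompactSpace D] {Λ : Subgroup E}
    (h : IsLattice Λ) (π : E →* D) (hc : Continuous π) (hs : Function.Surjective π) :
    (π '' (Λ : Set E)).Infinite := by
  intro hfin
  classical
  obtain ⟨F, hF⟩ : ∃ F : Subgroup D, F = Λ.map π := ⟨_, rfl⟩
  haveI : Finite F := by
    rw [hF]
    exact hfin.to_subtype
  haveI : Fintype F := Fintype.ofFinite F
  haveI : DiscreteTopology F := inferInstance
  letI : MeasurableSpace D := borel D
  haveI : BorelSpace D := ⟨rfl⟩
  letI : MeasurableSpace (E ⧸ Λ) := borel _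
  haveI : BorelSpace (E ⧸ Λ) := ⟨rfl⟩
  letI : MeasurableSpace (D ⧸ F) := borel _
  haveI : BorelSpace (D ⧸ F) := ⟨rfl⟩
  obtain ⟨ν, hν1, hν⟩ := h.exists_prob
  have hrel : ∀ a b : E, (QuotientGroup.leftRel Λ) a b → ((π a : D) : D ⧸ F) = ((π b : D) : D ⧸ F) := by
    intro a b hab
    rw [QuotientGroup.leftRel_apply] at hab
    rw [QuotientGroup.eq, hF]
    exact ⟨a⁻¹ * b, hab, by rw [map_mul, map_inv]⟩
  obtain ⟨f, hf, hfx⟩ : ∃ f : E ⧸ Λ → D ⧸ F, Continuous f ∧ ∀ x : E, f (x : E ⧸ Λ) = ((π x : D) : D ⧸ F) :=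
    ⟨Quotient.lift (fun x : E => ((π x : D) : D ⧸ F)) hrel,
      Continuous.quotient_lift (QuotientGroup.continuous_mk.comp hc) hrel, fun x => rfl⟩
  have hfe : ∀ (g : E) (x : E ⧸ Λ), f (g • x) = π g • f x := by
    intro g x
    obtain ⟨y, rfl⟩ := QuotientGroup.mk_surjective x
    have e1 : g • (y : E ⧸ Λ) = ((g * y : E) : E ⧸ Λ) := rfl
    rw [e1, hfx, hfx, map_mul]
    rfl
  haveI : IsProbabilityMeasure (ν.map f) :=
    Measure.isProbabilityMeasure_map hf.measurable.aemeasurable
  have hν' : ∀ d : D, (ν.map f).map (fun x => d • x) = ν.map f := by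
    intro d
    obtain ⟨g, rfl⟩ := hs d
    have hm1 : Measurable fun x : D ⧸ F => π g • x := (continuous_const_smul (π g)).measurable
    have hm2 : Measurable fun x : E ⧸ Λ => g • x := (continuous_const_smul g).measurable
    rw [Measure.map_map hm1 hf.measurable]
    have e : (fun x : D ⧸ F => π g • x) ∘ f = f ∘ fun x => g • x := by
      funext x
      exact (hfe g x).symm
    rw [e, ← Measure.map_map hf.measurable hm2, hν g]
  obtain ⟨c, hc0, hc1, -⟩ := exists_unf_eq F (ν.map f) hν' (haar : Measure D)
  have h1 : unf F (ν.map f) Set.univ < ⊤ := by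
    have e : unf F (ν.map f) Set.univ = ∫⁻ x, (1 : D → ℝ≥0∞) x ∂(unf F (ν.map f)) := by
      simp
    rw [e, lintegral_unf F (ν.map f) measurable_one]
    simp only [Pi.one_apply, tsum_fintype, Finset.sum_const, nsmul_eq_mul, mul_one,
      lintegral_const, measure_univ]
    exact ENNReal.natCast_lt_top _
  have h2 : unf F (ν.map f) Set.univ = ⊤ := by
    rw [hc1]
    change (c : ℝ≥0∞) * (haar : Measure D) Set.univ = ⊤
    rw [measure_univ_of_isMulLeftInvariant, ENNReal.mul_top]
    exact_mod_cast hc0.ne'
  rw [h2] at h1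
  exact lt_irrefl _ h1

/-- The same for the range. -/
theorem inf_range {E D : Type} [Group E] [TopologicalSpace E] [IsTopologicalGroup E] [Group D]
    [TopologicalSpace D] [IsTopologicalGroup D] [LocallyCompactSpace D]
    [SecondCountableTopology D] [T2Space D] [NoncompactSpace D] {Λ : Subgroup E}
    (h : IsLattice Λ) (π : E →* D) (hc : Continuous π) (hs : Function.Surjective π) :
    (Set.range fun γ : Λ => π (γ : E)).Infinite := by
  have h1 := inf_of_lat h π hc hs
  rw [Set.image_eq_range] at h1
  exact h1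

end Vale.Agent.P092.H710.Mix
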