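import Mathlib

/-!
P092, [MIX] (M1), helper710: the open normal subgroups of a place have finite index (input `hO` of
`not_neC`).
-/

set_option linter.all false

open Topology Filter

namespace Vale.Agent.P092.H710.Mix

/-- If `N` is normal of finite index, without normal subgroups and with trivial centraliser, then
every open normal subgroup of a non discrete group `G` has finite index. -/
theorem open_fin {G : Type} [Group G] [TopologicalSpace G] [IsTopologicalGroup G] {N : Subgroup G}
    (hn : N.Normal) (hf : N.FiniteIndex) (hc : ∀ g : G, (∀ n ∈ N, g * n = n * g) → g = 1)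
    (hs : ∀ L : Subgroup N, L.Normal → L = ⊥ ∨ L = ⊤) (hd : ¬ DiscreteTopology G)
    (O : Subgroup G) (hO : O.Normal) (ho : IsOpen (O : Set G)) : O.FiniteIndex := by
  have h1 : (O.subgroupOf N).Normal := hO.subgroupOf N
  rcases hs _ h1 with h | h
  · exfalso
    have h2 : O ⊓ N = ⊥ := by
      have := Subgroup.subgroupOf_eq_bot.1 h
      exact disjoint_iff.1 this
    have h3 : O = ⊥ := by
      rw [eq_bot_iff]
      intro g hg
      refine Subgroup.mem_bot.2 (hc g fun n hn' => ?_)
      have h4 : g * n * g⁻¹ * n⁻¹ ∈ O ⊓ N := by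
        refine ⟨?_, N.mul_mem (hn.conj_mem n hn' g) (N.inv_mem hn')⟩
        have h5 : g * n * g⁻¹ * n⁻¹ = g * (n * g⁻¹ * n⁻¹) := by group
        rw [h5]
        exact O.mul_mem hg (hO.conj_mem _ (O.inv_mem hg) n)
      rw [h2, Subgroup.mem_bot] at h4
      calc g * n = (g * n * g⁻¹ * n⁻¹) * (n * g) := by group
        _ = n * g := by rw [h4, one_mul]
    refine hd (discreteTopology_of_isOpen_singleton_one ?_)
    rw [h3] at ho
    simpa using ho
  · have h2 : N ≤ O := Subgroup.subgroupOf_eq_top.1 h
    exact Subgroup.finiteIndex_of_le h2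

end Vale.Agent.P092.H710.Mix
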