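import Vale.Agent.P092.H710.Mix.Dense
import Vale.Agent.P092.QT.H805.Res

/-!
P092, [MIX] (M1), helper710: restriction of a smooth field on `G` to the discrete image of `Γ`.
-/

set_option linter.all false

open scoped InnerProductSpace Topology ENNReal Pointwise
open Filter ContinuousLinearMap MeasureTheory
open Vale.Agent.P092.H160
open Vale.Agent.P092.QT (TRep)
open Vale.Agent.P092.QT.H156.Sm (Frm Fd Smo ACont L2)
open Vale.Agent.P092.QT.H715.Q (Dbl F1)

namespace Vale.Agent.P092.H710.Mix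

section top

variable {G : Type} [Group G] [TopologicalSpace G] [IsTopologicalGroup G]

/-- small open sets are moved away from themselves by a discrete subgroup -/
theorem exists_small (D : Subgroup G) [DiscreteTopology D] (y₁ : G) {N : Set G} (hN : N ∈ 𝓝 y₁) :
    ∃ U : Set G, IsOpen U ∧ y₁ ∈ U ∧ U ⊆ N ∧ ∀ d : D, ∀ y ∈ U, (d : G) * y ∈ U → d = 1 := by
  obtain ⟨W, hW, hW1⟩ : ∃ W ∈ 𝓝 (1 : G), ∀ d : D, (d : G) ∈ W → d = 1 := by
    have h1 : ({1} : Set D) ∈ 𝓝 (1 : D) := mem_nhds_discrete.2 rfl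
    rw [nhds_subtype_eq_comap, mem_comap] at h1
    obtain ⟨W, hW, h2⟩ := h1
    exact ⟨W, hW, fun d hd => Set.mem_singleton_iff.1 (h2 hd)⟩
  have hcont : Tendsto (fun q : G × G => q.1 * q.2⁻¹) (𝓝 y₁ ×ˢ 𝓝 y₁) (𝓝 1) := by
    have h1 : Continuous fun q : G × G => q.1 * q.2⁻¹ := by fun_prop
    have h2 := h1.tendsto (y₁, y₁)
    rw [nhds_prod_eq] at h2
    have h3 : y₁ * y₁⁻¹ = 1 := mul_inv_cancel y₁
    simpa only [h3] using h2
  have h4 := hcont hW
  rw [mem_map, mem_prod_self_iff] at h4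
  obtain ⟨t, ht, h5⟩ := h4
  obtain ⟨U, hU, hUo, hyU⟩ := mem_nhds_iff.1 (inter_mem ht hN)
  refine ⟨U, hUo, hyU, fun y hy => (hU hy).2, fun d y hy hdy => hW1 d ?_⟩
  have h6 : ((d : G) * y, y) ∈ t ×ˢ t := ⟨(hU hdy).1, (hU hy).1⟩
  have h7 := h5 h6
  change (d : G) * y * y⁻¹ ∈ W at h7
  rwa [mul_inv_cancel_right] at h7

end top

section ms

variable {G : Type} [Group G] [TopologicalSpace G] [IsTopologicalGroup G] [MeasurableSpace G]
  [BorelSpace G] {μ : Measure G} [μ.IsHaarMeasure]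

/-- Almost every orbit sum over a discrete subgroup is finite. -/
theorem exists_orbit (D : Subgroup G) [DiscreteTopology D] [Countable D] {F : G → ℝ≥0∞}
    (hF : Measurable F) (hFi : ∫⁻ x, F x ∂μ ≠ ∞) (y₁ : G) {N : Set G} (hN : N ∈ 𝓝 y₁) :
    ∃ y ∈ N, ∑' d : D, F ((d : G) * y) ≠ ∞ := by
  obtain ⟨U, hUo, hyU, hUN, hU⟩ := exists_small D y₁ hN
  have hpos : μ U ≠ 0 := (hUo.measure_pos μ ⟨y₁, hyU⟩).ne'
  have hm : ∀ d : D, Measurable fun y : G => F ((d : G) * y) := fun d =>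
    hF.comp (measurable_const_mul (d : G))
  have h1 : ∫⁻ y in U, ∑' d : D, F ((d : G) * y) ∂μ ≤ ∫⁻ x, F x ∂μ := by
    rw [lintegral_tsum fun d => (hm d).aemeasurable]
    have e1 : ∀ d : D, ∫⁻ y in U, F ((d : G) * y) ∂μ =
        ∫⁻ y, ({y | (d : G)⁻¹ * y ∈ U}).indicator F y ∂μ := by
      intro d
      rw [← lintegral_indicator hUo.measurableSet]
      have e2 : (fun y => U.indicator (fun y => F ((d : G) * y)) y) =
          fun y => ({y | (d : G)⁻¹ * y ∈ U}).indicator F ((d : G) * y) := by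
        funext y
        by_cases hy : y ∈ U
        · rw [Set.indicator_of_mem hy, Set.indicator_of_mem]
          change (d : G)⁻¹ * ((d : G) * y) ∈ U
          rwa [inv_mul_cancel_left]
        · rw [Set.indicator_of_notMem hy, Set.indicator_of_notMem]
          change ¬ ((d : G)⁻¹ * ((d : G) * y) ∈ U)
          rwa [inv_mul_cancel_left]
      rw [e2, lintegral_mul_left_eq_self]
    simp only [e1]
    have hms : ∀ d : D, MeasurableSet {y | (d : G)⁻¹ * y ∈ U} := fun d =>
      (measurable_const_mul ((d : G)⁻¹)) hUo.measurableSet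
    rw [← lintegral_tsum fun d => (hF.indicator (hms d)).aemeasurable]
    refine lintegral_mono fun y => ?_
    by_cases hex : ∃ d : D, (d : G)⁻¹ * y ∈ U
    · obtain ⟨d₀, hd₀⟩ := hex
      rw [tsum_eq_single d₀]
      · exact Set.indicator_le_self _ _ _
      · intro d hd
        rw [Set.indicator_of_notMem]
        intro hdU
        apply hd
        have h2 := hU (d₀⁻¹ * d) ((d : G)⁻¹ * y) hdU (by
          have e3 : ((d₀⁻¹ * d : D) : G) * ((d : G)⁻¹ * y) = (d₀ : G)⁻¹ * y := by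
            push_cast
            group
          rw [e3]
          exact hd₀)
        exact (inv_mul_eq_one.1 h2).symm
    · push Not at hex
      have h3 : ∀ d : D, ({y | (d : G)⁻¹ * y ∈ U}).indicator F y = 0 := fun d =>
        Set.indicator_of_notMem (s := {y | (d : G)⁻¹ * y ∈ U}) (hex d) F
      simp only [h3, tsum_zero]
      exact bot_le
  have h2 : ∀ᵐ y ∂(μ.restrict U), ∑' d : D, F ((d : G) * y) < ∞ :=
    ae_lt_top (Measurable.ennreal_tsum hm) (ne_top_of_le_ne_top hFi h1)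
  obtain ⟨y, hy, h3⟩ := Measure.exists_mem_of_measure_ne_zero_of_ae hpos h2
  exact ⟨y, hUN hy, h3.ne⟩

end ms

section res

variable {Γ X G H K : Type} [Group Γ] [Group X] [Group G] [Group H]
  [TopologicalSpace G] [TopologicalSpace H] [IsTopologicalGroup G] [IsTopologicalGroup H]
  [MeasurableSpace G] [BorelSpace G]
  [NormedAddCommGroup K] [InnerProductSpace ℂ K] [CompleteSpace K]
  {ρ : X →* (K →L[ℂ] K)} {V : Γ →* (K →L[ℂ] K)} {ω : K} {p : Γ →* G} {f : X →* Γ} {κ : Γ →* H}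
  {μ : Measure G} [μ.IsHaarMeasure]

/-- **Restriction to the discrete image.** -/
theorem exists_restr [DiscreteTopology p.range] [Countable p.range] [MeasurableSpace p.range]
    [BorelSpace p.range] {μ' : Measure p.range} [μ'.IsHaarMeasure] {b : G → K →L[ℂ] K}
    (hb : Smo (p.comp f) κ ρ V ω μ b) (hb0 : b ≠ 0) :
    ∃ b' : p.range → K →L[ℂ] K, Smo (p.rangeRestrict.comp f) κ ρ V ω μ' b' ∧ b' ≠ 0 := by
  obtain ⟨y₁, hy₁⟩ : ∃ y, b y ≠ 0 := by
    by_contra hcon
    push Not at hcon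
    exact hb0 (funext hcon)
  have hcont := hb.toFd.continuous
  have hN : {y | b y ≠ 0} ∈ 𝓝 y₁ := (isOpen_ne.preimage hcont).mem_nhds hy₁
  have hFm : Measurable fun y => ‖b y ω‖ₑ ^ 2 :=
    ((hb.toFd.continuous_apply ω).enorm.measurable).pow_const 2
  have hFi : ∫⁻ y, ‖b y ω‖ₑ ^ 2 ∂μ ≠ ∞ := (QT.H156.Sm.lintegral_sq_lt_top hb.l2).ne
  obtain ⟨y₀, hy₀, hsum⟩ := exists_orbit p.range hFm hFi y₁ hN
  refine ⟨fun d => b ((d : G) * y₀), ⟨⟨fun x d => ?_, ?_, fun ε hε => ?_⟩, ?_, ?_⟩, ?_⟩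
  · have h1 := hb.toFd.equiv x ((d : G) * y₀)
    rw [← mul_assoc] at h1
    exact h1
  · obtain ⟨C, hC⟩ := hb.toFd.bdd
    exact ⟨C, fun d => hC _⟩
  · refine ⟨{1}, mem_nhds_discrete.2 rfl, fun y hy x => ?_⟩
    rw [Set.mem_singleton_iff.1 hy, mul_one, sub_self, norm_zero]
    exact hε.le
  · intro ε hε
    obtain ⟨U, hU, h1⟩ := hb.acont ε hε
    exact ⟨U, hU, fun v hv d => h1 v hv _⟩
  · change MemLp _ 2 μ'
    rw [l2_iff]
    have h1 := ENNReal.summable_toReal hsum
    refine h1.congr fun d => ?_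
    rw [ENNReal.toReal_pow, toReal_enorm]
  · intro h0
    have h1 := congrFun h0 1
    change b (((1 : p.range) : G) * y₀) = 0 at h1
    rw [Subgroup.coe_one, one_mul] at h1
    exact hy₀ h1

end res

section main

variable {Γ X Y G H K : Type} [Group Γ] [Group X] [Group Y] [Group G] [Group H] [Countable X]
  [Countable Γ] [TopologicalSpace G] [TopologicalSpace H] [IsTopologicalGroup G]
  [IsTopologicalGroup H] [MeasurableSpace G] [BorelSpace G]
  [NormedAddCommGroup K] [InnerProductSpace ℂ K] [CompleteSpace K]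
  {V W : Γ →* (K →L[ℂ] K)} {f : X →* Γ} {ρ : X →* (K →L[ℂ] K)} {f' : Y →* Γ}
  {ρ' : Y →* (K →L[ℂ] K)} {ω ω' : K} {p : Γ →* G} {κ : Γ →* H} {μ : Measure G} [μ.IsHaarMeasure]

/-- **[T-DENSE]**, target group `G`: a place with an infinite discrete image carries no smooth
square integrable field over a dense source place. -/
theorem tdense_sub (h : Dbl V W f ρ f' ρ' ω ω') (hd : DiscreteTopology (Set.range p))
    (hi : (Set.range p).Infinite) (hκ : DenseRange κ) (hE : QT.H805.Erg κ ρ V ω)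
    (hO : ∀ O : Subgroup H, O.Normal → IsOpen (O : Set H) → O.FiniteIndex)
    {a : G → K →L[ℂ] K} (ha : Smo (p.comp f) κ ρ V ω μ a) : a = 0 := by
  by_contra h0
  haveI : DiscreteTopology p.range := hd
  haveI : Infinite p.range := Set.infinite_coe_iff.2 hi
  haveI : Countable p.range := p.rangeRestrict_surjective.countable
  letI : MeasurableSpace p.range := borel _
  haveI : BorelSpace p.range := ⟨rfl⟩
  obtain ⟨b', hb', hb0⟩ := exists_restr (μ' := (Measure.haar : Measure p.range)) ha h0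
  exact hb0 (tdense h p.rangeRestrict_surjective hκ (QT.H805.f1_of_erg h.fr hE) hO hb')

end main

end Vale.Agent.P092.H710.Mix
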