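import Vale.Agent.P092.H333.NeQ

/-!
P092, [MIX] (M1), helper710: transport of fields and of ergodicity along an isomorphism of the group,
and discrete images modulo a finite normal subgroup.
-/

set_option linter.all false

open scoped InnerProductSpace Topology ENNReal
open Filter ContinuousLinearMap MeasureTheory

namespace Vale.Agent.P092.H710.Mix

open Vale.Agent.P092.H333.Amp
open Vale.Agent.P092.QT.H156.Sm (ACont)

section tra

variable {Γ Γ' G H ℋ : Type} [Group Γ] [Group Γ'] [Group G] [TopologicalSpace G]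
  [MeasurableSpace G] [Group H] [TopologicalSpace H] [NormedAddCommGroup ℋ]
  [InnerProductSpace ℂ ℋ] [CompleteSpace ℋ] {p : Γ' →* G} {κ : Γ' →* H}
  {V A B : Γ' →* (ℋ →L[ℂ] ℋ)} {μ : Measure G}

theorem neF_equiv (e : Γ ≃* Γ') {b : G → ℋ →L[ℂ] ℋ}
    (h : NeF (p.comp (e : Γ →* Γ')) (κ.comp (e : Γ →* Γ')) (V.comp (e : Γ →* Γ'))
      (A.comp (e : Γ →* Γ')) (B.comp (e : Γ →* Γ')) μ b) : NeF p κ V A B μ b where
  eqA a y := by
    have h1 := h.eqA (e.symm a) y
    simpa using h1
  eqB c y := by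
    have h1 := h.eqB (e.symm c) y
    simpa using h1
  bdd := h.bdd
  rcont := h.rcont
  acont ε hε := by
    obtain ⟨U, hU, h1⟩ := h.acont ε hε
    refine ⟨U, hU, fun v hv x => ?_⟩
    have h2 := h1 (e.symm v) (by simpa using hv) x
    simpa using h2
  l2 := h.l2

/-- **Transport of a field.** -/
theorem neC_equiv (e : Γ ≃* Γ')
    (h : NeC (p.comp (e : Γ →* Γ')) (κ.comp (e : Γ →* Γ')) (V.comp (e : Γ →* Γ'))
      (A.comp (e : Γ →* Γ')) (B.comp (e : Γ →* Γ')) μ) : NeC p κ V A B μ := by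
  obtain ⟨b, hb, hb0⟩ := h
  exact ⟨b, neF_equiv e hb, hb0⟩

/-- **Transport of the ergodicity.** -/
theorem ergC_equiv (e : Γ ≃* Γ') (h : ErgC κ V A B) :
    ErgC (κ.comp (e : Γ →* Γ')) (V.comp (e : Γ →* Γ')) (A.comp (e : Γ →* Γ'))
      (B.comp (e : Γ →* Γ')) := by
  intro x hA hB hx
  refine h x (fun g => ?_) (fun g => ?_) fun ζ ε hε => ?_
  · have h1 := hA (e.symm g)
    simpa using h1
  · have h1 := hB (e.symm g)
    simpa using h1
  · obtain ⟨W, hW, h1⟩ := hx ζ ε hε
    refine ⟨W, hW, fun v hv => ?_⟩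
    have h2 := h1 (e.symm v) (by simpa using hv)
    simpa using h2

end tra

section disc

/-- **Discrete images modulo a finite normal subgroup.** -/
theorem disc_mk {Γ E : Type} [Group Γ] [Group E] [TopologicalSpace E] [IsTopologicalGroup E]
    [T2Space E] (R : Subgroup E) [R.Normal] [Finite R] (p : Γ →* E)
    (h : DiscreteTopology (Set.range p)) :
    DiscreteTopology (Set.range ((QuotientGroup.mk' R).comp p)) := by
  haveI hD : DiscreteTopology p.range := h
  have hDc : IsClosed (p.range : Set E) := Subgroup.isClosed_of_discrete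
  obtain ⟨F, hF⟩ : ∃ F : Set E, F = {x | x ∈ p.range ∧ x ∉ R} := ⟨_, rfl⟩
  have hFc : IsClosed F := by
    have h1 : F = Subtype.val '' {x : p.range | (x : E) ∉ R} := by
      rw [hF]
      ext x
      constructor
      · rintro ⟨hx, hx'⟩
        exact ⟨⟨x, hx⟩, hx', rfl⟩
      · rintro ⟨⟨y, hy⟩, hy', rfl⟩
        exact ⟨hy, hy'⟩
    rw [h1]
    exact hDc.isClosedEmbedding_subtypeVal.isClosedMap _ (isClosed_discrete _)
  obtain ⟨S, hS⟩ : ∃ S : Set E, S = ⋃ r : R, (fun x => x * (r : E)) '' F := ⟨_, rfl⟩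
  have hSc : IsClosed S := by
    rw [hS]
    exact isClosed_iUnion_of_finite fun r => (Homeomorph.mulRight (r : E)).isClosedMap _ hFc
  have h1S : (1 : E) ∉ S := by
    rw [hS, Set.mem_iUnion]
    rintro ⟨r, x, hx, hxr⟩
    rw [hF] at hx
    have h2 : x = (r : E)⁻¹ := eq_inv_of_mul_eq_one_left hxr
    exact hx.2 (by rw [h2]; exact R.inv_mem r.2)
  have hsat : ∀ x r, r ∈ R → x ∉ S → x * r ∉ S := by
    intro x r hr hx hxr
    rw [hS, Set.mem_iUnion] at hxr
    obtain ⟨s, y, hy, hys⟩ := hxr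
    refine hx ?_
    rw [hS, Set.mem_iUnion]
    refine ⟨⟨(s : E) * r⁻¹, R.mul_mem s.2 (R.inv_mem hr)⟩, y, hy, ?_⟩
    have hys' : y * (s : E) = x * r := hys
    show y * ((s : E) * r⁻¹) = x
    rw [← mul_assoc, hys', mul_inv_cancel_right]
  have ho : IsOpen ((QuotientGroup.mk : E → E ⧸ R) '' Sᶜ) :=
    QuotientGroup.isOpenMap_coe _ hSc.isOpen_compl
  have hr : DiscreteTopology (((QuotientGroup.mk' R).comp p).range) := by
    refine discreteTopology_of_isOpen_singleton_one ?_
    have h2 : ({1} : Set (((QuotientGroup.mk' R).comp p).range)) =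
        Subtype.val ⁻¹' ((QuotientGroup.mk : E → E ⧸ R) '' Sᶜ) := by
      ext x
      constructor
      · intro hx
        have hx1 : x = 1 := hx
        rw [hx1]
        exact ⟨1, h1S, rfl⟩
      · rintro ⟨y, hy, hyx⟩
        obtain ⟨g, hg⟩ := x.2
        have hg' : ((p g : E) : E ⧸ R) = (x : E ⧸ R) := hg
        have h3 : (y : E ⧸ R) = ((p g : E) : E ⧸ R) := by rw [hg']; exact hyx
        have h4 : y⁻¹ * p g ∈ R := QuotientGroup.eq.1 h3
        have h5 : p g ∉ S := by
          have h6 := hsat y _ h4 hy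
          rwa [mul_inv_cancel_left] at h6
        have h6 : p g ∈ R := by
          by_contra h7
          refine h5 ?_
          rw [hS, Set.mem_iUnion]
          exact ⟨1, p g, by rw [hF]; exact ⟨⟨g, rfl⟩, h7⟩, mul_one _⟩
        have h7 : (x : E ⧸ R) = 1 := by
          rw [← hg']
          exact (QuotientGroup.eq_one_iff _).2 h6
        exact Subtype.ext h7
    rw [h2]
    exact ho.preimage continuous_subtype_val
  exact hr

end disc

end Vale.Agent.P092.H710.Mix
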